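import Mathlib
import Crest.Agent.Lib.RatPrim.Basic

set_option autoImplicit false

namespace Crest.Agent.R126

open scoped ContDiff
open Finset

/-- primitive recursive global bounds for all derivatives -/
def Bd (f : ℝ → ℝ) : Prop :=
  ∃ B : ℕ → ℕ, Primrec B ∧ ∀ m x, |iteratedDeriv m f x| ≤ B m

/-- primitive recursive rational approximation at rational points -/
def Val (f : ℝ → ℝ) : Prop :=
  ∃ E : ℚ × ℕ → ℚ, Primrec E ∧ ∀ (q : ℚ) (n : ℕ), |f q - E (q, n)| ≤ 1 / ((n : ℝ) + 1)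

/-- effective smooth functions of one real variable -/
structure Eff1 (f : ℝ → ℝ) : Prop where
  smooth : ContDiff ℝ ∞ f
  bd : Bd f
  val : Val f

lemma cda {f : ℝ → ℝ} (hf : ContDiff ℝ ∞ f) (m : ℕ) (x : ℝ) : ContDiffAt ℝ m f x :=
  (hf.of_le (by exact_mod_cast le_top)).contDiffAt

lemma cdn {f : ℝ → ℝ} (hf : ContDiff ℝ ∞ f) (m : ℕ) : ContDiff ℝ m f :=
  hf.of_le (by exact_mod_cast le_top)

lemma hasDerivAt_iter {f : ℝ → ℝ} (hf : ContDiff ℝ ∞ f) (m : ℕ) (x : ℝ) :
    HasDerivAt (iteratedDeriv m f) (iteratedDeriv (m + 1) f x) x := by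
  rw [iteratedDeriv_succ]
  exact ((hf.differentiable_iteratedDeriv m (by exact_mod_cast ENat.natCast_lt_top m)) x).hasDerivAt

lemma Eff1.const (c : ℚ) : Eff1 (fun _ => (c : ℝ)) := by
  refine ⟨contDiff_const, ⟨fun _ => RatPrim.absb c, Primrec.const _, fun m x => ?_⟩,
    ⟨fun _ => c, Primrec.const _, fun q n => by simp; positivity⟩⟩
  rw [iteratedDeriv_const]
  split_ifs
  · exact RatPrim.abs_le_absb c
  · simp

lemma Eff1.add {f g : ℝ → ℝ} (hf : Eff1 f) (hg : Eff1 g) : Eff1 (fun x => f x + g x) := by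
  obtain ⟨B1, hB1, h1⟩ := hf.bd
  obtain ⟨B2, hB2, h2⟩ := hg.bd
  obtain ⟨E1, hE1, e1⟩ := hf.val
  obtain ⟨E2, hE2, e2⟩ := hg.val
  refine ⟨hf.smooth.add hg.smooth, ⟨fun m => B1 m + B2 m, Primrec.nat_add.comp hB1 hB2,
    fun m x => ?_⟩, ⟨fun p => E1 (p.1, 2 * p.2 + 1) + E2 (p.1, 2 * p.2 + 1), ?_, fun q n => ?_⟩⟩
  · rw [iteratedDeriv_fun_add (cda hf.smooth m x) (cda hg.smooth m x)]
    push_cast
    exact (abs_add_le _ _).trans (add_le_add (h1 m x) (h2 m x))
  · have : Primrec fun p : ℚ × ℕ => (p.1, 2 * p.2 + 1) :=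
      Primrec.pair Primrec.fst (Primrec.nat_double_succ.comp Primrec.snd)
    exact RatPrim.add (hE1.comp this) (hE2.comp this)
  · have a1 := e1 q (2 * n + 1)
    have a2 := e2 q (2 * n + 1)
    have e : (1 : ℝ) / (((2 * n + 1 : ℕ) : ℝ) + 1) = 1 / ((n : ℝ) + 1) / 2 := by
      push_cast; field_simp; ring
    rw [e] at a1 a2
    push_cast
    rw [abs_le] at *
    constructor <;> linarith [a1.1, a1.2, a2.1, a2.2]

lemma approx_mul {a b a' b' A B ε : ℝ} (ha : |a| ≤ A) (hb : |b| ≤ B) (h1 : |a - a'| ≤ ε)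
    (h2 : |b - b'| ≤ ε) (hε : ε ≤ 1) : |a * b - a' * b'| ≤ (A + B + 1) * ε := by
  have e : a * b - a' * b' = a * (b - b') + (a - a') * b - (a - a') * (b - b') := by ring
  have hε0 : 0 ≤ ε := (abs_nonneg _).trans h1
  rw [e]
  have t1 : |a * (b - b')| ≤ A * ε := by
    rw [abs_mul]; exact mul_le_mul ha h2 (abs_nonneg _) ((abs_nonneg _).trans ha)
  have t2 : |(a - a') * b| ≤ ε * B := by
    rw [abs_mul]; exact mul_le_mul h1 hb (abs_nonneg _) hε0
  have t3 : |(a - a') * (b - b')| ≤ ε * 1 := by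
    rw [abs_mul]; exact mul_le_mul h1 (h2.trans hε) (abs_nonneg _) hε0
  calc _ ≤ |a * (b - b') + (a - a') * b| + |(a - a') * (b - b')| := abs_sub _ _
    _ ≤ |a * (b - b')| + |(a - a') * b| + |(a - a') * (b - b')| := by
        gcongr; exact abs_add_le _ _
    _ ≤ _ := by linarith

lemma one_div_le_one' (k : ℕ) : (1 : ℝ) / ((k : ℝ) + 1) ≤ 1 := by
  rw [div_le_one (by positivity)]; linarith [Nat.cast_nonneg (α := ℝ) k]

lemma mul_prec (C n : ℕ) : (C : ℝ) * (1 / ((((n + 1) * C : ℕ) : ℝ) + 1)) ≤ 1 / ((n : ℝ) + 1) := by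
  rw [mul_one_div, div_le_div_iff₀ (by positivity) (by positivity)]
  push_cast; nlinarith

lemma Eff1.mul {f g : ℝ → ℝ} (hf : Eff1 f) (hg : Eff1 g) : Eff1 (fun x => f x * g x) := by
  obtain ⟨B1, hB1, h1⟩ := hf.bd
  obtain ⟨B2, hB2, h2⟩ := hg.bd
  obtain ⟨E1, hE1, e1⟩ := hf.val
  obtain ⟨E2, hE2, e2⟩ := hg.val
  refine ⟨hf.smooth.mul hg.smooth,
    ⟨fun m => ∑ i ∈ range (m + 1), m.choose i * B1 i * B2 (m - i), ?_, fun m x => ?_⟩,
    ⟨fun p => E1 (p.1, (p.2 + 1) * (B1 0 + B2 0 + 1)) * E2 (p.1, (p.2 + 1) * (B1 0 + B2 0 + 1)),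
      ?_, fun q n => ?_⟩⟩
  · refine RatPrim.nat_sum_range (f := fun m i => m.choose i * B1 i * B2 (m - i)) ?_ Primrec.succ
    exact Primrec.nat_mul.comp (Primrec.nat_mul.comp RatPrim.nat_choose (hB1.comp Primrec.snd))
      (hB2.comp (Primrec.nat_sub.comp Primrec.fst Primrec.snd))
  · rw [iteratedDeriv_fun_mul (cda hf.smooth m x) (cda hg.smooth m x)]
    push_cast
    refine (Finset.abs_sum_le_sum_abs _ _).trans (Finset.sum_le_sum fun i _ => ?_)
    rw [abs_mul, abs_mul, Nat.abs_cast]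
    exact mul_le_mul (mul_le_mul_of_nonneg_left (h1 i x) (Nat.cast_nonneg _)) (h2 _ x)
      (abs_nonneg _) (by positivity)
  · have : Primrec fun p : ℚ × ℕ => (p.1, (p.2 + 1) * (B1 0 + B2 0 + 1)) :=
      Primrec.pair Primrec.fst (Primrec.nat_mul.comp (Primrec.succ.comp Primrec.snd)
        (Primrec.const _))
    exact RatPrim.mul (hE1.comp this) (hE2.comp this)
  · have := approx_mul (h1 0 q) (h2 0 q) (e1 q ((n + 1) * (B1 0 + B2 0 + 1)))
      (e2 q ((n + 1) * (B1 0 + B2 0 + 1))) (one_div_le_one' _)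
    simp only [iteratedDeriv_zero] at this
    have h3 := mul_prec (B1 0 + B2 0 + 1) n
    push_cast at this h3 ⊢
    exact this.trans h3

lemma Eff1.affine {f : ℝ → ℝ} (hf : Eff1 f) (a b : ℚ) : Eff1 (fun x => f (a * x + b)) := by
  obtain ⟨B1, hB1, h1⟩ := hf.bd
  obtain ⟨E1, hE1, e1⟩ := hf.val
  refine ⟨hf.smooth.comp ((contDiff_const.mul contDiff_id).add contDiff_const),
    ⟨fun m => RatPrim.absb a ^ m * B1 m, ?_, fun m x => ?_⟩,
    ⟨fun p => E1 (a * p.1 + b, p.2), ?_, fun q n => ?_⟩⟩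
  · exact Primrec.nat_mul.comp (RatPrim.nat_pow (Primrec.const _) Primrec.id) hB1
  · have hs : ContDiff ℝ m (fun y => f (y + b)) :=
      (cdn hf.smooth m).comp (contDiff_id.add contDiff_const)
    have := iteratedDeriv_comp_const_mul hs (a : ℝ)
    rw [this, iteratedDeriv_comp_add_const]
    simp only [abs_mul, abs_pow]
    push_cast
    exact mul_le_mul (pow_le_pow_left₀ (abs_nonneg _) (RatPrim.abs_le_absb a) m) (h1 m _)
      (abs_nonneg _) (by positivity)
  · exact hE1.comp (Primrec.pair (RatPrim.add (RatPrim.mul (Primrec.const a) Primrec.fst)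
      (Primrec.const b)) Primrec.snd)
  · have := e1 (a * q + b) n
    push_cast at this
    exact this

lemma Eff1.id_mul {f : ℝ → ℝ} (hf : Eff1 f) (M : ℕ) (hM : ∀ y : ℝ, (M : ℝ) < |y| → f y = 0) :
    Eff1 (fun y => y * f y) := by
  obtain ⟨B1, hB1, h1⟩ := hf.bd
  obtain ⟨E1, hE1, e1⟩ := hf.val
  refine ⟨contDiff_id.mul hf.smooth,
    ⟨fun m => ∑ i ∈ range (m + 1), m.choose i * (M + 1) * B1 (m - i), ?_, fun m x => ?_⟩,
    ⟨fun p => p.1 * E1 (p.1, (p.2 + 1) * RatPrim.absb p.1), ?_, fun q n => ?_⟩⟩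
  · refine RatPrim.nat_sum_range (f := fun m i => m.choose i * (M + 1) * B1 (m - i)) ?_
      Primrec.succ
    exact Primrec.nat_mul.comp (Primrec.nat_mul.comp RatPrim.nat_choose (Primrec.const _))
      (hB1.comp (Primrec.nat_sub.comp Primrec.fst Primrec.snd))
  · by_cases hx : (M : ℝ) < |x|
    · have : (fun y => y * f y) =ᶠ[nhds x] fun _ => 0 := by
        have ho : IsOpen {y : ℝ | (M : ℝ) < |y|} := isOpen_lt continuous_const continuous_abs
        filter_upwards [ho.mem_nhds hx] with y hy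
        rw [hM y hy, mul_zero]
      rw [this.iteratedDeriv_eq m, iteratedDeriv_const]
      simp only [ite_self, abs_zero]
      positivity
    · rw [iteratedDeriv_fun_mul (f := fun y => y) contDiffAt_id (cda hf.smooth m x)]
      push_cast
      refine (Finset.abs_sum_le_sum_abs _ _).trans (Finset.sum_le_sum fun i _ => ?_)
      rw [abs_mul, abs_mul, Nat.abs_cast]
      refine mul_le_mul (mul_le_mul_of_nonneg_left ?_ (Nat.cast_nonneg _)) (h1 _ x)
        (abs_nonneg _) (by positivity)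
      rw [iteratedDeriv_fun_id]
      have : (0 : ℝ) ≤ M := Nat.cast_nonneg _
      split_ifs
      · linarith [not_lt.1 hx]
      · simp
      · simp; linarith
  · exact RatPrim.mul Primrec.fst (hE1.comp (Primrec.pair Primrec.fst
      (Primrec.nat_mul.comp (Primrec.succ.comp Primrec.snd)
        (RatPrim.primrec_absb.comp Primrec.fst))))
  · have h2 := e1 q ((n + 1) * RatPrim.absb q)
    have h3 := mul_prec (RatPrim.absb q) n
    simp only [Rat.cast_mul]
    rw [← mul_sub, abs_mul]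
    exact (mul_le_mul (RatPrim.abs_le_absb q) h2 (abs_nonneg _) (by positivity)).trans h3

lemma Eff1.inv {f : ℝ → ℝ} (hf : Eff1 f) (K : ℕ) (hK : ∀ x, 1 ≤ K * f x) :
    Eff1 (fun x => (f x)⁻¹) := by
  obtain ⟨B1, hB1, h1⟩ := hf.bd
  obtain ⟨E1, hE1, e1⟩ := hf.val
  have hK0 : (0 : ℝ) < K := by
    rcases Nat.eq_zero_or_pos K with h | h
    · have := hK 0; rw [h] at this; norm_num at this
    · exact_mod_cast h
  have hpos : ∀ x, 0 < f x := fun x => pos_of_mul_pos_of_pos hK0 x (hK x)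
  have hsm : ContDiff ℝ ∞ (fun x => (f x)⁻¹) := hf.smooth.inv fun x => (hpos x).ne'
  obtain ⟨A, hA, hA0, hAs⟩ : ∃ A : ℕ → ℕ, Primrec A ∧ A 0 = K ∧
      ∀ j, A (j + 1) = A j * (1 + K * 2 ^ (j + 1) * ∑ i ∈ range (j + 2), B1 i) := by
    refine ⟨fun m : ℕ => Nat.rec (motive := fun _ => ℕ) K
      (fun j ih => ih * (1 + K * 2 ^ (j + 1) * ∑ i ∈ range (j + 2), B1 i)) m, ?_, rfl, fun j => rfl⟩
    refine Primrec.nat_rec₁ K ?_
    refine Primrec.nat_mul.comp Primrec.snd (Primrec.nat_add.comp (Primrec.const 1)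
      (Primrec.nat_mul.comp (Primrec.nat_mul.comp (Primrec.const K)
        (RatPrim.nat_pow (Primrec.const 2) (Primrec.succ.comp Primrec.fst))) ?_))
    exact RatPrim.nat_sum_range (f := fun (_ : ℕ × ℕ) i => B1 i) (hB1.comp Primrec.snd)
      (Primrec.nat_add.comp Primrec.fst (Primrec.const 2))
  have key : ∀ m : ℕ, ∀ i ≤ m, ∀ x : ℝ,
      |iteratedDeriv i (fun x => (f x)⁻¹) x| ≤ ((A m : ℕ) : ℝ) := by
    intro m
    induction m with
    | zero =>
      intro i hi x
      obtain rfl : i = 0 := by omega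
      simp only [iteratedDeriv_zero]
      rw [abs_of_pos (inv_pos.2 (hpos x)), inv_le_iff_one_le_mul₀ (hpos x), hA0]
      exact hK x
    | succ m ih =>
      intro i hi x
      have hA1 : (A (m + 1) : ℝ)
          = A m * (1 + K * 2 ^ (m + 1) * ∑ i ∈ range (m + 2), (B1 i : ℝ)) := by
        rw [hAs]; push_cast; ring
      have hS : (0 : ℝ) ≤ ∑ i ∈ range (m + 2), (B1 i : ℝ) := by positivity
      have hAm : (0 : ℝ) ≤ A m := Nat.cast_nonneg _
      rcases Nat.lt_or_ge i (m + 1) with h | h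
      · refine (ih i (by omega) x).trans ?_
        rw [hA1]
        have : (0 : ℝ) ≤ K * 2 ^ (m + 1) * ∑ i ∈ range (m + 2), (B1 i : ℝ) := by positivity
        nlinarith
      · obtain rfl : i = m + 1 := by omega
        have hl := iteratedDeriv_fun_mul (cda hsm (m + 1) x) (cda hf.smooth (m + 1) x)
        have h0 : (fun x => (f x)⁻¹ * f x) = fun _ => (1 : ℝ) := by
          funext y; exact inv_mul_cancel₀ (hpos y).ne'
        rw [h0, iteratedDeriv_const, if_neg (Nat.succ_ne_zero m), Finset.sum_range_succ] at hl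
        simp only [Nat.choose_self, Nat.cast_one, one_mul, Nat.sub_self, iteratedDeriv_zero] at hl
        have hb : |∑ i ∈ range (m + 1), ((m + 1).choose i : ℝ) *
            iteratedDeriv i (fun x => (f x)⁻¹) x * iteratedDeriv (m + 1 - i) f x|
            ≤ 2 ^ (m + 1) * (A m * ∑ i ∈ range (m + 2), (B1 i : ℝ)) := by
          refine (Finset.abs_sum_le_sum_abs _ _).trans ?_
          calc _ ≤ ∑ i ∈ range (m + 1), ((m + 1).choose i : ℝ) *
                (A m * ∑ i ∈ range (m + 2), (B1 i : ℝ)) := by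
                refine Finset.sum_le_sum fun i hi => ?_
                rw [abs_mul, abs_mul, Nat.abs_cast, mul_assoc]
                refine mul_le_mul_of_nonneg_left (mul_le_mul (ih i (by
                  have := Finset.mem_range.1 hi; omega) x) ((h1 _ x).trans ?_) (abs_nonneg _) hAm)
                  (Nat.cast_nonneg _)
                exact Finset.single_le_sum (f := fun i => (B1 i : ℝ))
                  (fun _ _ => Nat.cast_nonneg _) (Finset.mem_range.2 (by omega))
            _ ≤ _ := by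
                rw [← Finset.sum_mul]
                refine mul_le_mul_of_nonneg_right ?_ (by positivity)
                have h2 := Nat.sum_range_choose (m + 1)
                rw [Finset.sum_range_succ] at h2
                have h3 : ∑ i ∈ range (m + 1), (m + 1).choose i ≤ 2 ^ (m + 1) := by omega
                exact_mod_cast h3
        set u := iteratedDeriv (m + 1) (fun x => (f x)⁻¹) x
        have hu : |u| * f x ≤ 2 ^ (m + 1) * (A m * ∑ i ∈ range (m + 2), (B1 i : ℝ)) := by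
          rw [← abs_of_pos (hpos x), ← abs_mul]
          have : u * f x = -∑ i ∈ range (m + 1), ((m + 1).choose i : ℝ) *
            iteratedDeriv i (fun x => (f x)⁻¹) x * iteratedDeriv (m + 1 - i) f x := by linarith
          rw [this, abs_neg]; exact hb
        calc |u| ≤ |u| * (K * f x) := le_mul_of_one_le_right (abs_nonneg _) (hK x)
          _ = K * (|u| * f x) := by ring
          _ ≤ K * (2 ^ (m + 1) * (A m * ∑ i ∈ range (m + 2), (B1 i : ℝ))) :=
              mul_le_mul_of_nonneg_left hu hK0.le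
          _ ≤ _ := by rw [hA1]; nlinarith
  refine ⟨hsm, ⟨A, hA, fun m x => key m m le_rfl x⟩,
    ⟨fun p => (E1 (p.1, (p.2 + 1) * (2 * K * K)))⁻¹, ?_, fun q n => ?_⟩⟩
  · exact RatPrim.inv (hE1.comp (Primrec.pair Primrec.fst
      (Primrec.nat_mul.comp (Primrec.succ.comp Primrec.snd) (Primrec.const _))))
  · have h2 := e1 q ((n + 1) * (2 * K * K))
    have h3 := mul_prec (2 * K * K) n
    simp only [Rat.cast_inv]
    set e : ℝ := (E1 (q, (n + 1) * (2 * K * K)) : ℝ)
    set ε : ℝ := 1 / ((((n + 1) * (2 * K * K) : ℕ) : ℝ) + 1)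
    have hK1 : (1 : ℝ) ≤ K := by
      have : 0 < K := by exact_mod_cast hK0
      exact_mod_cast this
    have hε : 2 * K * K * ε ≤ 1 := by
      have := one_div_le_one' n
      push_cast at h3; linarith
    have hε0 : 0 ≤ ε := (abs_nonneg _).trans h2
    have hKe : 1 / 2 ≤ K * e := by
      have h4 := (abs_le.1 h2).2
      have h5 := hK q
      have h6 : 2 * K * ε ≤ 1 := by nlinarith
      nlinarith
    have he : 0 < e := by
      by_contra h
      have := mul_nonpos_of_nonneg_of_nonpos hK0.le (not_lt.1 h)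
      linarith
    have : (f q)⁻¹ - e⁻¹ = -(f q - e) * ((f q)⁻¹ * e⁻¹) := by
      have := (hpos q).ne'
      field_simp; ring
    rw [this, abs_mul, abs_neg, abs_of_pos (mul_pos (inv_pos.2 (hpos q)) (inv_pos.2 he))]
    have i1 : (f q)⁻¹ ≤ K := by rw [inv_le_iff_one_le_mul₀ (hpos q)]; exact hK q
    have i2 : e⁻¹ ≤ 2 * K := by rw [inv_le_iff_one_le_mul₀ he]; linarith
    have i3 : (f q)⁻¹ * e⁻¹ ≤ K * (2 * K) := mul_le_mul i1 i2 (inv_pos.2 he).le hK0.le
    calc _ ≤ ε * (K * (2 * K)) := mul_le_mul h2 i3 (by have := hpos q; positivity) hε0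
      _ ≤ _ := by push_cast at h3; linarith
where
  pos_of_mul_pos_of_pos {K : ℕ} {f : ℝ → ℝ} (hK0 : (0 : ℝ) < K) (x : ℝ) (h : 1 ≤ K * f x) :
      0 < f x := by
    by_contra h'
    have := mul_nonpos_of_nonneg_of_nonpos hK0.le (not_lt.1 h')
    linarith

lemma fwdDiff_mvt (δ : ℝ) (hδ : 0 < δ) (m : ℕ) : ∀ (f : ℝ → ℝ), ContDiff ℝ ∞ f → ∀ x : ℝ,
    ∃ ξ ∈ Set.Icc x (x + m * δ), (fwdDiff δ)^[m] f x = δ ^ m * iteratedDeriv m f ξ := by
  induction m with
  | zero => intro f _ x; exact ⟨x, by simp, by simp⟩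
  | succ m ih =>
    intro f hf x
    have hs : ContDiff ℝ ∞ (fun y => f (y + δ)) := hf.comp (contDiff_id.add contDiff_const)
    obtain ⟨ξ, hξ, h⟩ := ih (fwdDiff δ f) (hs.sub hf) x
    rw [Function.iterate_succ_apply, h]
    have e : iteratedDeriv m (fwdDiff δ f) ξ
        = iteratedDeriv m f (ξ + δ) - iteratedDeriv m f ξ := by
      have := iteratedDeriv_fun_sub (cda hs m ξ) (cda hf m ξ)
      rw [iteratedDeriv_comp_add_const] at this
      exact this
    obtain ⟨η, hη, h2⟩ := exists_hasDerivAt_eq_slope (iteratedDeriv m f) (iteratedDeriv (m + 1) f)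
      (show ξ < ξ + δ by linarith)
      (fun y _ => (hasDerivAt_iter hf m y).continuousAt.continuousWithinAt)
      (fun y _ => hasDerivAt_iter hf m y)
    refine ⟨η, ⟨by linarith [hξ.1, hη.1], by push_cast; linarith [hξ.2, hη.2]⟩, ?_⟩
    rw [e, h2, add_sub_cancel_left, pow_succ]
    field_simp

lemma Eff1.dval {f : ℝ → ℝ} (hf : Eff1 f) :
    ∃ E : ℕ × ℚ × ℕ → ℚ, Primrec E ∧ ∀ (m : ℕ) (q : ℚ) (n : ℕ),
      |iteratedDeriv m f q - E (m, q, n)| ≤ 1 / ((n : ℝ) + 1) := by
  obtain ⟨B1, hB1, h1⟩ := hf.bd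
  obtain ⟨E1, hE1, e1⟩ := hf.val
  -- reciprocal step size
  let L : ℕ × ℚ × ℕ → ℕ := fun p => (2 * p.2.2 + 1 + 1) * (p.1 * B1 (p.1 + 1)) + 1
  have hL : Primrec L :=
    Primrec.succ.comp (Primrec.nat_mul.comp
      (Primrec.succ.comp (Primrec.nat_double_succ.comp (Primrec.snd.comp Primrec.snd)))
      (Primrec.nat_mul.comp Primrec.fst (hB1.comp (Primrec.succ.comp Primrec.fst))))
  let k : ℕ × ℚ × ℕ → ℕ := fun p => (2 * p.2.2 + 1 + 1) * (2 * L p) ^ p.1
  have hk : Primrec k :=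
    Primrec.nat_mul.comp
      (Primrec.succ.comp (Primrec.nat_double_succ.comp (Primrec.snd.comp Primrec.snd)))
      (RatPrim.nat_pow (Primrec.nat_double.comp hL) Primrec.fst)
  refine ⟨fun p => (L p : ℚ) ^ p.1 * ∑ i ∈ range (p.1 + 1),
    (-1) ^ (p.1 - i) * (p.1.choose i : ℚ) * E1 (p.2.1 + i / L p, k p), ?_, fun m q n => ?_⟩
  · refine RatPrim.mul (RatPrim.pow (RatPrim.natCast hL) Primrec.fst) ?_
    refine RatPrim.sum_range (f := fun (p : ℕ × ℚ × ℕ) (i : ℕ) =>
      (-1) ^ (p.1 - i) * (p.1.choose i : ℚ) * E1 (p.2.1 + i / L p, k p)) ?_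
      (Primrec.succ.comp Primrec.fst)
    refine RatPrim.mul (RatPrim.mul (RatPrim.pow (Primrec.const _)
      (Primrec.nat_sub.comp (Primrec.fst.comp Primrec.fst) Primrec.snd))
      (RatPrim.natCast (RatPrim.nat_choose.comp (Primrec.fst.comp Primrec.fst) Primrec.snd))) ?_
    exact hE1.comp (Primrec.pair (RatPrim.add (Primrec.fst.comp (Primrec.snd.comp Primrec.fst))
      (RatPrim.div (RatPrim.natCast Primrec.snd) (RatPrim.natCast (hL.comp Primrec.fst))))
      (hk.comp Primrec.fst))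
  · set l : ℕ := L (m, q, n) with hl
    set κ : ℕ := k (m, q, n) with hκ
    have hl0 : (0 : ℝ) < l := by
      have : 0 < l := Nat.succ_pos _
      exact_mod_cast this
    obtain ⟨ξ, hξ, h⟩ := fwdDiff_mvt (1 / l) (by positivity) m f hf.smooth q
    rw [fwdDiff_iter_eq_sum_shift] at h
    have half : (1 : ℝ) / (((2 * n + 1 : ℕ) : ℝ) + 1) = 1 / ((n : ℝ) + 1) / 2 := by
      push_cast; field_simp; ring
    have t1 : |iteratedDeriv m f q - iteratedDeriv m f ξ| ≤ 1 / ((n : ℝ) + 1) / 2 := by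
      have hmv := (convex_univ (𝕜 := ℝ) (E := ℝ)).norm_image_sub_le_of_norm_hasDerivWithin_le
        (f := iteratedDeriv m f) (f' := iteratedDeriv (m + 1) f) (C := B1 (m + 1))
        (fun y _ => (hasDerivAt_iter hf.smooth m y).hasDerivWithinAt)
        (fun y _ => h1 (m + 1) y) (Set.mem_univ ξ) (Set.mem_univ (q : ℝ))
      rw [Real.norm_eq_abs, Real.norm_eq_abs] at hmv
      have h3 : |(q : ℝ) - ξ| ≤ m * (1 / l) := by
        rw [abs_sub_comm, abs_of_nonneg (sub_nonneg.2 hξ.1)]; linarith [hξ.2]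
      have h4 := mul_prec (m * B1 (m + 1)) (2 * n + 1)
      rw [half] at h4
      refine hmv.trans ((mul_le_mul_of_nonneg_left h3 (Nat.cast_nonneg _)).trans
        (le_trans (le_of_eq ?_) h4))
      simp only [hl, L]; push_cast; ring
    have t2 : |iteratedDeriv m f ξ - (l : ℝ) ^ m * ∑ i ∈ range (m + 1),
        (-1) ^ (m - i) * (m.choose i : ℝ) * (E1 (q + i / l, κ) : ℝ)| ≤ 1 / ((n : ℝ) + 1) / 2 := by
      have e : iteratedDeriv m f ξ = (l : ℝ) ^ m * ∑ i ∈ range (m + 1),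
          (-1) ^ (m - i) * (m.choose i : ℝ) * f ((q + i / l : ℚ) : ℝ) := by
        have : iteratedDeriv m f ξ = (l : ℝ) ^ m * ((1 / l) ^ m * iteratedDeriv m f ξ) := by
          rw [← mul_assoc, ← mul_pow, mul_one_div_cancel hl0.ne', one_pow, one_mul]
        rw [this, ← h]
        congr 1
        refine Finset.sum_congr rfl fun i _ => ?_
        simp only [zsmul_eq_mul, nsmul_eq_mul]
        push_cast
        rw [mul_one_div]
      rw [e, ← mul_sub, ← Finset.sum_sub_distrib, abs_mul, abs_pow, abs_of_pos hl0]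
      have h4 := mul_prec ((2 * l) ^ m) (2 * n + 1)
      rw [half] at h4
      refine le_trans ?_ h4
      have : |∑ i ∈ range (m + 1), ((-1) ^ (m - i) * (m.choose i : ℝ) * f ((q + i / l : ℚ) : ℝ)
          - (-1) ^ (m - i) * (m.choose i : ℝ) * (E1 (q + i / l, κ) : ℝ))|
          ≤ 2 ^ m * (1 / ((κ : ℝ) + 1)) := by
        refine (Finset.abs_sum_le_sum_abs _ _).trans ?_
        calc _ ≤ ∑ i ∈ range (m + 1), (m.choose i : ℝ) * (1 / ((κ : ℝ) + 1)) := by
              refine Finset.sum_le_sum fun i _ => ?_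
              rw [← mul_sub, abs_mul, abs_mul, abs_pow, abs_neg, abs_one, one_pow, one_mul,
                Nat.abs_cast]
              exact mul_le_mul_of_nonneg_left (e1 _ _) (Nat.cast_nonneg _)
          _ = _ := by
              rw [← Finset.sum_mul]
              congr 1
              exact_mod_cast Nat.sum_range_choose m
      refine (mul_le_mul_of_nonneg_left this (by positivity)).trans (le_of_eq ?_)
      simp only [hκ, k, ← hl]; push_cast; ring
    simp only [← hl, ← hκ]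
    push_cast
    calc _ ≤ _ := abs_sub_le _ (iteratedDeriv m f ξ) _
      _ ≤ _ := add_le_add t1 t2
      _ = _ := by ring

lemma Eff1.deriv {f : ℝ → ℝ} (hf : Eff1 f) : Eff1 (deriv f) := by
  obtain ⟨B1, hB1, h1⟩ := hf.bd
  obtain ⟨E, hE, e⟩ := hf.dval
  refine ⟨(contDiff_infty_iff_deriv.1 hf.smooth).2, ⟨fun m => B1 (m + 1), hB1.comp Primrec.succ,
    fun m x => ?_⟩, ⟨fun p => E (1, p), hE.comp (Primrec.pair (Primrec.const 1) Primrec.id),
    fun q n => ?_⟩⟩
  · rw [← iteratedDeriv_succ']; exact h1 _ _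
  · have := e 1 q n
    rwa [iteratedDeriv_one] at this

end Crest.Agent.R126
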