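import Mathlib
import Crest.Prelude.Def_BoxFlow
import Crest.Agent.R126.Eff1

set_option autoImplicit false

namespace Crest.Agent.R126

open scoped ContDiff
open Finset Crest.AnalysisR.BoxFlow

/-- space-time -/
abbrev ST : Type := ℝ × (Fin 3 → ℝ)

/-- primitive recursive version of effectiveness, together with smoothness -/
def EffP (U : Field) : Prop :=
  ContDiff ℝ ∞ U ∧
  ∃ (E : List (Fin 4) × (ℚ × (Fin 3 → ℚ)) × ℕ → (Fin 3 → ℚ)) (bound : List (Fin 4) → ℕ),
    Primrec E ∧ Primrec bound ∧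
    (∀ (ds : List (Fin 4)) (t : ℚ) (q : Fin 3 → ℚ) (n : ℕ) (j : Fin 3),
      |mixedDeriv ds U ((t : ℝ), ratPoint q) j - (E (ds, (t, q), n) j : ℝ)| ≤ 1 / ((n : ℝ) + 1)) ∧
    (∀ (ds : List (Fin 4)) (p : ℝ × (Fin 3 → ℝ)) (j : Fin 3), |mixedDeriv ds U p j| ≤ (bound ds : ℝ))

lemma EffP.effective {U : Field} (h : EffP U) : Effective U := by
  obtain ⟨_, E, b, hE, hb, h1, h2⟩ := h
  exact ⟨E, b, hE.to_comp, hb.to_comp, h1, h2⟩

lemma mixedDeriv_smooth {U : Field} (hU : ContDiff ℝ ∞ U) (ds : List (Fin 4)) :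
    ContDiff ℝ ∞ (mixedDeriv ds U) := by
  induction ds with
  | nil => exact hU
  | cons d ds ih =>
    exact (ih.fderiv_right (m := ∞) (by simp)).clm_apply contDiff_const

lemma mixedDeriv_add {U V : Field} (hU : ContDiff ℝ ∞ U) (hV : ContDiff ℝ ∞ V)
    (ds : List (Fin 4)) :
    mixedDeriv ds (fun p => U p + V p) = fun p => mixedDeriv ds U p + mixedDeriv ds V p := by
  induction ds with
  | nil => rfl
  | cons d ds ih =>
    funext p
    simp only [mixedDeriv, ih]
    rw [fderiv_fun_add ((mixedDeriv_smooth hU ds).differentiable (by simp) p)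
      ((mixedDeriv_smooth hV ds).differentiable (by simp) p)]
    rfl

lemma primrec_fin3 {α : Type*} [Primcodable α] {f : α → Fin 3 → ℚ}
    (h : ∀ j, Primrec fun a => f a j) : Primrec f :=
  Primrec.fin_curry.2 (Primrec₂.swap (Primrec.fin_curry₁.2 h))

lemma primrec_app {α : Type*} [Primcodable α] {f : α → Fin 3 → ℚ} (h : Primrec f) (j : Fin 3) :
    Primrec fun a => f a j :=
  Primrec.fin_app.comp h (Primrec.const j)

lemma EffP.add {U V : Field} (hU : EffP U) (hV : EffP V) : EffP (fun p => U p + V p) := by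
  obtain ⟨sU, E1, b1, hE1, hb1, e1, c1⟩ := hU
  obtain ⟨sV, E2, b2, hE2, hb2, e2, c2⟩ := hV
  refine ⟨sU.add sV, fun p j => E1 (p.1, p.2.1, 2 * p.2.2 + 1) j + E2 (p.1, p.2.1, 2 * p.2.2 + 1) j,
    fun ds => b1 ds + b2 ds, ?_, Primrec.nat_add.comp hb1 hb2, ?_, ?_⟩
  · have : Primrec fun p : List (Fin 4) × (ℚ × (Fin 3 → ℚ)) × ℕ => (p.1, p.2.1, 2 * p.2.2 + 1) :=
      Primrec.pair Primrec.fst (Primrec.pair (Primrec.fst.comp Primrec.snd)
        (Primrec.nat_double_succ.comp (Primrec.snd.comp Primrec.snd)))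
    exact primrec_fin3 fun j =>
      RatPrim.add (primrec_app (hE1.comp this) j) (primrec_app (hE2.comp this) j)
  · intro ds t q n j
    have a1 := e1 ds t q (2 * n + 1) j
    have a2 := e2 ds t q (2 * n + 1) j
    have e : (1 : ℝ) / (((2 * n + 1 : ℕ) : ℝ) + 1) = 1 / ((n : ℝ) + 1) / 2 := by
      push_cast; field_simp; ring
    rw [e] at a1 a2
    rw [mixedDeriv_add sU sV]
    simp only [Pi.add_apply, Rat.cast_add]
    rw [abs_le] at *
    constructor <;> linarith [a1.1, a1.2, a2.1, a2.2]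
  · intro ds p j
    rw [mixedDeriv_add sU sV]
    push_cast
    exact (abs_add_le _ _).trans (add_le_add (c1 ds p j) (c2 ds p j))

/-- space-time coordinates -/
noncomputable def co (i : Fin 4) : ST →L[ℝ] ℝ :=
  Fin.cases (ContinuousLinearMap.fst ℝ ℝ (Fin 3 → ℝ))
    (fun j => (ContinuousLinearMap.proj j).comp (ContinuousLinearMap.snd ℝ ℝ (Fin 3 → ℝ))) i

@[simp] lemma co_zero (p : ST) : co 0 p = p.1 := rfl
@[simp] lemma co_succ (j : Fin 3) (p : ST) : co j.succ p = p.2 j := rfl

lemma co_direction (i d : Fin 4) : co i (direction d) = if i = d then 1 else 0 := by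
  refine Fin.cases ?_ (fun i => ?_) i <;> refine Fin.cases ?_ (fun d => ?_) d
  · simp [direction]
  · simp [direction, (Fin.succ_ne_zero d).symm]
  · simp [direction]
  · simp [direction, Pi.single_apply]

/-- a pure tensor field -/
noncomputable def tensor (F : Fin 4 → ℝ → ℝ) (v : Fin 3 → ℝ) : Field :=
  fun p => (∏ i, F i (co i p)) • v

lemma tensor_smooth {F : Fin 4 → ℝ → ℝ} (hF : ∀ i, ContDiff ℝ ∞ (F i)) (v : Fin 3 → ℝ) :
    ContDiff ℝ ∞ (tensor F v) :=
  (contDiff_prod fun i _ => (hF i).comp (co i).contDiff).smul contDiff_const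

lemma fderiv_tensor {F : Fin 4 → ℝ → ℝ} (hF : ∀ i, Differentiable ℝ (F i)) (v : Fin 3 → ℝ)
    (p : ST) (d : Fin 4) :
    fderiv ℝ (tensor F v) p (direction d) = tensor (Function.update F d (deriv (F d))) v p := by
  have h1 : ∀ i ∈ (univ : Finset (Fin 4)), HasFDerivAt (fun p => F i (co i p))
      (deriv (F i) (co i p) • co i) p := fun i _ =>
    (hF i (co i p)).hasDerivAt.comp_hasFDerivAt p (co i).hasFDerivAt
  have h2 := (HasFDerivAt.finsetProd h1).smul_const v
  have h3 : fderiv ℝ (tensor F v) p = _ := h2.fderiv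
  rw [h3]
  simp only [ContinuousLinearMap.smulRight_apply, _root_.sum_apply,
    _root_.smul_apply, co_direction, smul_eq_mul, mul_ite, mul_one, mul_zero,
    Finset.sum_ite_eq', Finset.mem_univ, if_true, tensor]
  congr 1
  rw [← Finset.mul_prod_erase univ _ (Finset.mem_univ d), Function.update_self, mul_comm]
  congr 1
  refine Finset.prod_congr rfl fun i hi => ?_
  rw [Function.update_of_ne (Finset.ne_of_mem_erase hi)]

lemma mixedDeriv_tensor {F : Fin 4 → ℝ → ℝ} (hF : ∀ i, ContDiff ℝ ∞ (F i)) (v : Fin 3 → ℝ)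
    (ds : List (Fin 4)) :
    mixedDeriv ds (tensor F v) = tensor (fun i => iteratedDeriv (ds.count i) (F i)) v := by
  induction ds with
  | nil => simp [mixedDeriv]
  | cons d ds ih =>
    funext p
    simp only [mixedDeriv, ih]
    rw [fderiv_tensor (fun i y => (hasDerivAt_iter (hF i) _ y).differentiableAt)]
    congr 1
    funext i
    by_cases h : i = d
    · subst h; simp [iteratedDeriv_succ]
    · rw [Function.update_of_ne h, List.count_cons_of_ne (Ne.symm h)]

lemma primrec_count (i : Fin 4) : Primrec fun ds : List (Fin 4) => ds.count i := by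
  have h : PrimrecPred fun d : Fin 4 => d = i := Primrec.eq.comp Primrec.id (Primrec.const i)
  refine (Primrec.list_length.comp (Primrec.listFilter h)).of_eq fun ds => ?_
  rw [List.count, List.countP_eq_length_filter]
  congr 1

lemma approx_prod4 {a a' A : Fin 4 → ℝ} {ε : ℝ} (ha : ∀ i, |a i| ≤ A i)
    (h : ∀ i, |a i - a' i| ≤ ε) (hε : ε ≤ 1) :
    |∏ i, a i - ∏ i, a' i| ≤ 4 * (∏ i, (A i + 1)) * ε := by
  have hA : ∀ i, 0 ≤ A i := fun i => (abs_nonneg _).trans (ha i)
  have hε0 : 0 ≤ ε := (abs_nonneg _).trans (h 0)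
  have hb : ∀ i, |a' i| ≤ A i + 1 := fun i => by
    have h1 := abs_sub_abs_le_abs_sub (a' i) (a i)
    rw [abs_sub_comm] at h1
    linarith [h i, ha i]
  have hc : ∀ i, |a i| ≤ A i + 1 := fun i => by linarith [ha i]
  have hd : ∀ i, |a i - a' i| ≤ (A i + 1) * ε := fun i => by nlinarith [h i, hA i]
  have hA1 : ∀ i, 0 ≤ A i + 1 := fun i => by linarith [hA i]
  simp only [Fin.prod_univ_four]
  have e : a 0 * a 1 * a 2 * a 3 - a' 0 * a' 1 * a' 2 * a' 3
      = (a 0 - a' 0) * a 1 * a 2 * a 3 + a' 0 * (a 1 - a' 1) * a 2 * a 3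
        + a' 0 * a' 1 * (a 2 - a' 2) * a 3 + a' 0 * a' 1 * a' 2 * (a 3 - a' 3) := by ring
  have t0 : |(a 0 - a' 0) * a 1 * a 2 * a 3|
      ≤ ((A 0 + 1) * ε) * (A 1 + 1) * (A 2 + 1) * (A 3 + 1) := by
    simp only [abs_mul]
    have := hA1 0; have := hA1 1; have := hA1 2
    gcongr
    exacts [hd 0, hc 1, hc 2, hc 3]
  have t1 : |a' 0 * (a 1 - a' 1) * a 2 * a 3|
      ≤ (A 0 + 1) * ((A 1 + 1) * ε) * (A 2 + 1) * (A 3 + 1) := by
    simp only [abs_mul]
    have := hA1 0; have := hA1 1; have := hA1 2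
    gcongr
    exacts [hb 0, hd 1, hc 2, hc 3]
  have t2 : |a' 0 * a' 1 * (a 2 - a' 2) * a 3|
      ≤ (A 0 + 1) * (A 1 + 1) * ((A 2 + 1) * ε) * (A 3 + 1) := by
    simp only [abs_mul]
    have := hA1 0; have := hA1 1; have := hA1 2
    gcongr
    exacts [hb 0, hb 1, hd 2, hc 3]
  have t3 : |a' 0 * a' 1 * a' 2 * (a 3 - a' 3)|
      ≤ (A 0 + 1) * (A 1 + 1) * (A 2 + 1) * ((A 3 + 1) * ε) := by
    simp only [abs_mul]
    have := hA1 0; have := hA1 1; have := hA1 2
    gcongr
    exacts [hb 0, hb 1, hb 2, hd 3]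
  rw [e]
  rw [abs_le] at t0 t1 t2 t3 ⊢
  constructor <;> linarith [t0.1, t0.2, t1.1, t1.2, t2.1, t2.2, t3.1, t3.2]

lemma effP_tensor {F : Fin 4 → ℝ → ℝ} (hF : ∀ i, Eff1 (F i)) (j0 : Fin 3) :
    EffP (tensor F (Pi.single j0 1)) := by
  choose B hB hb using fun i => (hF i).bd
  choose E hE he using fun i => (hF i).dval
  let C : List (Fin 4) → ℕ := fun ds => ∏ i, (B i (ds.count i) + 1)
  have hC : Primrec C := by
    simp only [C, Fin.prod_univ_four]
    have : ∀ i, Primrec fun ds : List (Fin 4) => B i (ds.count i) + 1 := fun i =>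
      Primrec.succ.comp ((hB i).comp (primrec_count i))
    exact Primrec.nat_mul.comp (Primrec.nat_mul.comp (Primrec.nat_mul.comp (this 0) (this 1))
      (this 2)) (this 3)
  let cq : Fin 4 → ℚ × (Fin 3 → ℚ) → ℚ := fun i p => Fin.cases p.1 (fun j => p.2 j) i
  have hcq : ∀ i, Primrec (cq i) := fun i =>
    Fin.cases Primrec.fst (fun j => primrec_app Primrec.snd j) i
  have hco : ∀ i (t : ℚ) (q : Fin 3 → ℚ), co i ((t : ℝ), ratPoint q) = cq i (t, q) := fun i t q =>
    Fin.cases rfl (fun j => rfl) i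
  refine ⟨tensor_smooth (fun i => (hF i).smooth) _,
    fun p j => if j = j0 then ∏ i, E i (p.1.count i, cq i p.2.1, (p.2.2 + 1) * (4 * C p.1)) else 0,
    C, ?_, hC, ?_, ?_⟩
  · refine primrec_fin3 fun j => ?_
    by_cases h : j = j0
    · simp only [h, if_true, Fin.prod_univ_four]
      have : ∀ i, Primrec fun p : List (Fin 4) × (ℚ × (Fin 3 → ℚ)) × ℕ =>
          E i (p.1.count i, cq i p.2.1, (p.2.2 + 1) * (4 * C p.1)) := fun i =>
        (hE i).comp (Primrec.pair ((primrec_count i).comp Primrec.fst)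
          (Primrec.pair ((hcq i).comp (Primrec.fst.comp Primrec.snd))
            (Primrec.nat_mul.comp (Primrec.succ.comp (Primrec.snd.comp Primrec.snd))
              (Primrec.nat_mul.comp (Primrec.const 4) (hC.comp Primrec.fst)))))
      exact RatPrim.mul (RatPrim.mul (RatPrim.mul (this 0) (this 1)) (this 2)) (this 3)
    · simp only [h, if_false]; exact Primrec.const _
  · intro ds t q n j
    rw [mixedDeriv_tensor (fun i => (hF i).smooth)]
    by_cases h : j = j0
    · subst h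
      simp only [tensor, Pi.smul_apply, Pi.single_eq_same, smul_eq_mul, mul_one, if_true, hco,
        Rat.cast_prod]
      have := approx_prod4 (a := fun i => iteratedDeriv (ds.count i) (F i) (cq i (t, q)))
        (fun i => hb i _ _) (fun i => he i (ds.count i) (cq i (t, q)) ((n + 1) * (4 * C ds)))
        (one_div_le_one' _)
      refine this.trans (le_trans (le_of_eq ?_) (mul_prec (4 * C ds) n))
      simp only [C]; push_cast; ring
    · simp only [tensor, Pi.smul_apply, Pi.single_eq_of_ne h, h, if_false]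
      simp; positivity
  · intro ds p j
    rw [mixedDeriv_tensor (fun i => (hF i).smooth)]
    by_cases h : j = j0
    · subst h
      simp only [tensor, Pi.smul_apply, Pi.single_eq_same, smul_eq_mul, mul_one, C, Finset.abs_prod]
      push_cast
      exact Finset.prod_le_prod (fun i _ => abs_nonneg _) fun i _ => by linarith [hb i (ds.count i) (co i p)]
    · simp only [tensor, Pi.smul_apply, Pi.single_eq_of_ne h]
      simp

end Crest.Agent.R126
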