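import Mathlib
import Crest.Prelude.Def_BoxFlow
import Crest.Agent.R126.Tensor

set_option autoImplicit false

namespace Crest.Agent.R126

open scoped ContDiff NNReal
open Finset Crest.AnalysisR.BoxFlow

lemma lip_of_cpt {U : Field} (hU : ContDiff ℝ ∞ U) (hc : HasCompactSupport U) :
    ∃ K : ℝ≥0, ∀ t, LipschitzWith K (fun x => U (t, x)) := by
  obtain ⟨K, hK⟩ := ContDiff.lipschitzWith_of_hasCompactSupport hc hU (by simp)
  refine ⟨K, fun t => ?_⟩
  have := hK.comp (LipschitzWith.prodMk_left t)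
  rw [mul_one] at this
  exact this

lemma exists_global_sol {U : Field} (hU : ContDiff ℝ ∞ U) (hc : HasCompactSupport U)
    (x : Fin 3 → ℝ) : ∃ γ : ℝ → Fin 3 → ℝ, γ 0 = x ∧ ∀ t, HasDerivAt γ (U (t, γ t)) t := by
  obtain ⟨K, hK⟩ := lip_of_cpt hU hc
  obtain ⟨L, hL⟩ := hc.exists_bound_of_continuous hU.continuous
  have hL0 : 0 ≤ L := (norm_nonneg _).trans (hL 0)
  have loc : ∀ N : ℕ, ∃ α : ℝ → Fin 3 → ℝ, α 0 = x ∧
      ∀ t ∈ Set.Ioo (-((N : ℝ) + 1)) (N + 1), HasDerivAt α (U (t, α t)) t := by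
    intro N
    have hN : (0 : ℝ) ≤ N + 1 := by positivity
    have hpl : IsPicardLindelof (fun t x => U (t, x)) (tmin := -((N : ℝ) + 1)) (tmax := N + 1)
        ⟨0, by constructor <;> linarith⟩ x ⟨L * (N + 1), by positivity⟩ 0 ⟨L, hL0⟩ K := by
      refine ⟨fun t _ => (hK t).lipschitzOnWith, fun y _ => ?_, fun t _ y _ => hL _, ?_⟩
      · exact (hU.continuous.comp (continuous_id.prodMk continuous_const)).continuousOn
      · show L * max ((N : ℝ) + 1 - 0) (0 - -((N : ℝ) + 1)) ≤ L * (N + 1) - 0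
        simp
    obtain ⟨α, h0, hα⟩ := hpl.exists_eq_forall_mem_Icc_hasDerivWithinAt₀
    exact ⟨α, h0, fun t ht =>
      (hα t (Set.Ioo_subset_Icc_self ht)).hasDerivAt (Icc_mem_nhds ht.1 ht.2)⟩
  choose α h0 hα using loc
  have agree : ∀ M N : ℕ, M ≤ N → Set.EqOn (α M) (α N) (Set.Ioo (-((M : ℝ) + 1)) (M + 1)) := by
    intro M N hMN
    have hMN' : (M : ℝ) ≤ N := by exact_mod_cast hMN
    have hM : (0 : ℝ) < M + 1 := by positivity
    refine ODE_solution_unique_of_mem_Ioo (v := fun t x => U (t, x)) (s := fun _ => Set.univ)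
      (K := K) (t₀ := 0) (fun t _ => (hK t).lipschitzOnWith) ⟨by linarith, hM⟩
      (fun t ht => ⟨hα M t ht, trivial⟩)
      (fun t ht => ⟨hα N t ⟨by linarith [ht.1], by linarith [ht.2]⟩, trivial⟩) ?_
    rw [h0, h0]
  have hmem : ∀ s : ℝ, s ∈ Set.Ioo (-((⌈|s|⌉₊ : ℝ) + 1)) (⌈|s|⌉₊ + 1) := fun s => by
    have := Nat.le_ceil |s|
    constructor <;> linarith [le_abs_self s, neg_abs_le s]
  refine ⟨fun t => α ⌈|t|⌉₊ t, h0 _, fun t => ?_⟩
  have hev : (fun t => α ⌈|t|⌉₊ t) =ᶠ[nhds t] α (⌈|t|⌉₊ + 1) := by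
    filter_upwards [Metric.ball_mem_nhds t one_pos] with s hs
    refine agree _ _ ?_ (hmem s)
    rw [Nat.ceil_le]
    have h1 := Nat.le_ceil |t|
    have h2 : |s| ≤ |t| + 1 := by
      have := abs_sub_abs_le_abs_sub s t
      rw [Metric.mem_ball, Real.dist_eq] at hs
      linarith
    push_cast; linarith
  have h1 : α ⌈|t|⌉₊ t = α (⌈|t|⌉₊ + 1) t := hev.eq_of_nhds
  simp only [h1]
  refine (hα (⌈|t|⌉₊ + 1) t ?_).congr_of_eventuallyEq hev
  have := hmem t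
  push_cast
  constructor <;> linarith [this.1, this.2]

lemma sol_unique {U : Field} (hU : ContDiff ℝ ∞ U) (hc : HasCompactSupport U)
    {γ₁ γ₂ : ℝ → Fin 3 → ℝ} (h1 : ∀ t, HasDerivAt γ₁ (U (t, γ₁ t)) t)
    (h2 : ∀ t, HasDerivAt γ₂ (U (t, γ₂ t)) t) (h0 : γ₁ 0 = γ₂ 0) : γ₁ = γ₂ := by
  obtain ⟨K, hK⟩ := lip_of_cpt hU hc
  exact ODE_solution_unique_univ (v := fun t x => U (t, x)) (s := fun _ => Set.univ) (K := K)
    (t₀ := 0) (fun t => (hK t).lipschitzOnWith) (fun t => ⟨h1 t, trivial⟩)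
    (fun t => ⟨h2 t, trivial⟩) h0

/-- admissible fields, active only in the time window `(s0, s1)` -/
structure Good (s0 s1 : ℝ) (U : Field) : Prop where
  eff : EffP U
  cpt : HasCompactSupport U
  time : ∀ p : ST, (p.1 ≤ s0 ∨ s1 ≤ p.1) → U p = 0
  div : ∀ p, spaceDiv U p = 0

/-- the affine map carrying one box to another one -/
noncomputable def aff (B B' : (Fin 3 → ℚ) × (Fin 3 → ℚ)) (x : Fin 3 → ℝ) : Fin 3 → ℝ :=
  fun j => (B'.1 j : ℝ) + ((B'.2 j / B.2 j : ℚ) : ℝ) * (x j - (B.1 j : ℝ))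

/-- the field carries a neighbourhood of the box `B` affinely onto a neighbourhood of `B'` -/
def Carries (s0 s1 : ℝ) (U : Field) (B B' : (Fin 3 → ℚ) × (Fin 3 → ℚ)) : Prop :=
  ∃ O : Set (Fin 3 → ℝ), IsOpen O ∧ box B.1 B.2 ⊆ O ∧ ∀ x ∈ O, ∃ γ : ℝ → Fin 3 → ℝ,
    (∀ t, HasDerivAt γ (U (t, γ t)) t) ∧ (∀ t ≤ s0, γ t = x) ∧ ∀ t, s1 ≤ t → γ t = aff B B' x

/-- configurations of boxes -/
abbrev Cfg (n : ℕ) : Type := Fin n → (Fin 3 → ℚ) × (Fin 3 → ℚ)

/-- positive half-widths -/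
def Pos {n : ℕ} (c : Cfg n) : Prop := ∀ i j, 0 < (c i).2 j

/-- one configuration can be carried to another one in any time window -/
def Reach {n : ℕ} (c c' : Cfg n) : Prop :=
  ∀ s0 s1 : ℚ, s0 < s1 → ∃ U, Good s0 s1 U ∧ ∀ i, Carries s0 s1 U (c i) (c' i)

lemma spaceDiv_add {U V : Field} (hU : ContDiff ℝ ∞ U) (hV : ContDiff ℝ ∞ V) (p : ST) :
    spaceDiv (fun p => U p + V p) p = spaceDiv U p + spaceDiv V p := by
  simp only [spaceDiv]
  rw [fderiv_fun_add (hU.differentiable (by simp) p) (hV.differentiable (by simp) p),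
    ← Finset.sum_add_distrib]
  rfl

lemma aff_self {B : (Fin 3 → ℚ) × (Fin 3 → ℚ)} (hB : ∀ j, 0 < B.2 j) (x : Fin 3 → ℝ) :
    aff B B x = x := by
  funext j
  simp [aff, div_self (hB j).ne']

lemma aff_comp {B B' B'' : (Fin 3 → ℚ) × (Fin 3 → ℚ)} (hB : ∀ j, 0 < B'.2 j) (x : Fin 3 → ℝ) :
    aff B' B'' (aff B B' x) = aff B B'' x := by
  funext j
  have : ((B'.2 j : ℚ) : ℝ) ≠ 0 := by exact_mod_cast (hB j).ne'
  simp only [aff, Rat.cast_div, add_sub_cancel_left]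
  congr 1
  rw [← mul_assoc]
  congr 1
  rw [div_mul_div_comm, mul_comm ((B''.2 j : ℚ) : ℝ), mul_div_mul_left _ _ this]

lemma aff_mem {B B' : (Fin 3 → ℚ) × (Fin 3 → ℚ)} (hB : ∀ j, 0 < B.2 j) (hB' : ∀ j, 0 < B'.2 j)
    {x : Fin 3 → ℝ} (hx : x ∈ box B.1 B.2) : aff B B' x ∈ box B'.1 B'.2 := by
  intro j
  have h1 : (0 : ℝ) < B.2 j := by exact_mod_cast hB j
  have h2 : (0 : ℝ) < B'.2 j := by exact_mod_cast hB' j
  simp only [aff, Rat.cast_div, add_sub_cancel_left, abs_mul, abs_of_pos (div_pos h2 h1)]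
  rw [div_mul_eq_mul_div, div_le_iff₀ h1]
  exact mul_le_mul_of_nonneg_left (hx j) h2.le

lemma aff_continuous (B B' : (Fin 3 → ℚ) × (Fin 3 → ℚ)) : Continuous (aff B B') := by
  refine continuous_pi fun j => ?_
  simp only [aff]
  fun_prop

lemma Reach.refl {n : ℕ} {c : Cfg n} (hc : Pos c) : Reach c c := by
  intro s0 s1 _
  have h0 : tensor (fun _ _ => ((0 : ℚ) : ℝ)) (Pi.single 0 1) = fun _ => 0 := by
    funext p; simp [tensor]
  refine ⟨fun _ => 0, ⟨h0 ▸ effP_tensor (fun _ => Eff1.const 0) 0, HasCompactSupport.zero,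
    fun _ _ => rfl, fun p => by simp [spaceDiv]⟩, fun i => ⟨Set.univ, isOpen_univ,
    Set.subset_univ _, fun x _ => ⟨fun _ => x, fun t => hasDerivAt_const t x, fun _ _ => rfl,
    fun _ _ => (aff_self (hc i) x).symm⟩⟩⟩

lemma Reach.trans {n : ℕ} {c c' c'' : Cfg n} (hc : Pos c) (hc' : Pos c') (h1 : Reach c c')
    (h2 : Reach c' c'') : Reach c c'' := by
  intro s0 s1 hs
  obtain ⟨U, gU, cU⟩ := h1 s0 ((s0 + s1) / 2) (by linarith)
  obtain ⟨V, gV, cV⟩ := h2 ((s0 + s1) / 2) s1 (by linarith)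
  have hs' : (s0 : ℝ) < s1 := by exact_mod_cast hs
  have hm : (((s0 + s1) / 2 : ℚ) : ℝ) = (s0 + s1) / 2 := by push_cast; ring
  rw [hm] at gU gV cU cV
  refine ⟨fun p => U p + V p, ⟨gU.eff.add gV.eff, gU.cpt.add gV.cpt, fun p hp => ?_, fun p => ?_⟩,
    fun i => ?_⟩
  · rw [gU.time p, gV.time p, add_zero]
    · rcases hp with h | h
      · left; linarith
      · right; exact h
    · rcases hp with h | h
      · left; exact h
      · right; linarith
  · rw [spaceDiv_add gU.eff.1 gV.eff.1, gU.div, gV.div, add_zero]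
  · obtain ⟨O1, hO1, b1, d1⟩ := cU i
    obtain ⟨O2, hO2, b2, d2⟩ := cV i
    refine ⟨O1 ∩ aff (c i) (c' i) ⁻¹' O2, hO1.inter (hO2.preimage (aff_continuous _ _)),
      fun x hx => ⟨b1 hx, b2 (aff_mem (hc i) (hc' i) hx)⟩, fun x hx => ?_⟩
    obtain ⟨γ1, p1, q1, r1⟩ := d1 x hx.1
    obtain ⟨γ2, p2, q2, r2⟩ := d2 _ hx.2
    refine ⟨fun t => γ1 t + γ2 t - aff (c i) (c' i) x, fun t => ?_, fun t ht => ?_, fun t ht => ?_⟩
    · have := ((p1 t).add (p2 t)).sub_const (aff (c i) (c' i) x)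
      refine HasDerivAt.congr_deriv this ?_
      show _ = U (t, γ1 t + γ2 t - aff (c i) (c' i) x) + V (t, γ1 t + γ2 t - aff (c i) (c' i) x)
      rcases le_total t ((s0 + s1) / 2) with h | h
      · simp only [q2 t h, add_sub_cancel_right]
        rw [gV.time (t, γ1 t) (Or.inl h), gV.time _ (Or.inl h)]
      · simp only [r1 t h, add_sub_cancel_left]
        rw [gU.time (t, γ2 t) (Or.inr h), gU.time _ (Or.inr h)]
    · simp only [q1 t ht, q2 t (by linarith), add_sub_cancel_right]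
    · simp only [r1 t (by linarith), r2 t ht, add_sub_cancel_left, aff_comp (hc' i)]

end Crest.Agent.R126
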