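import Mathlib
import Crest.Agent.R126.Eff1

set_option autoImplicit false

namespace Crest.Agent.R126

open scoped ContDiff
open Finset Polynomial

/-- `x⁻¹ ^ k * expNegInvGlue x` -/
noncomputable def gk (k : ℕ) (x : ℝ) : ℝ := x⁻¹ ^ k * expNegInvGlue x

lemma gk_smooth (k : ℕ) : ContDiff ℝ ∞ (gk k) := by
  have := expNegInvGlue.contDiff_polynomial_eval_inv_mul (n := ⊤) (X ^ k : ℝ[X])
  have e : (fun x : ℝ => eval x⁻¹ (X ^ k : ℝ[X]) * expNegInvGlue x) = gk k := by
    funext y; simp [gk]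
  rwa [e] at this

lemma gk_deriv (k : ℕ) : deriv (gk k) = fun x => gk (k + 2) x - k * gk (k + 1) x := by
  funext x
  have := (expNegInvGlue.hasDerivAt_polynomial_eval_inv_mul (X ^ k : ℝ[X]) x)
  have e : (fun x : ℝ => eval x⁻¹ (X ^ k : ℝ[X]) * expNegInvGlue x) = gk k := by
    funext y; simp [gk]
  rw [e] at this
  rw [this.deriv]
  cases k with
  | zero => simp [gk]
  | succ k => simp [gk]; ring

lemma gk_bound0 (k : ℕ) (x : ℝ) : |gk k x| ≤ k.factorial := by
  rcases le_or_gt x 0 with h | h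
  · simp [gk, expNegInvGlue.zero_of_nonpos h]
  · have h1 : expNegInvGlue x = Real.exp (-x⁻¹) := by simp [expNegInvGlue, not_le.2 h]
    have h2 := Real.pow_div_factorial_le_exp x⁻¹ (inv_pos.2 h).le k
    rw [gk, h1, abs_of_nonneg (by positivity), Real.exp_neg, ← div_eq_mul_inv,
      div_le_iff₀ (Real.exp_pos _)]
    rw [div_le_iff₀ (by positivity)] at h2
    linarith

lemma gk_bound (m : ℕ) : ∀ (k : ℕ) (x : ℝ),
    |iteratedDeriv m (gk k) x| ≤ (((k + 2 * m).factorial * (k + 2 * m + 1) ^ m : ℕ) : ℝ) := by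
  induction m with
  | zero => intro k x; simpa using gk_bound0 k x
  | succ m ih =>
    intro k x
    rw [iteratedDeriv_succ', gk_deriv, iteratedDeriv_fun_sub (cda (gk_smooth _) m x)
      (cda (contDiff_const.mul (gk_smooth _)) m x), iteratedDeriv_const_mul_field]
    have h1 := ih (k + 2) x
    have h2 := ih (k + 1) x
    have h3 : ((k + 2 + 2 * m).factorial * (k + 2 + 2 * m + 1) ^ m)
        + k * ((k + 1 + 2 * m).factorial * (k + 1 + 2 * m + 1) ^ m)
        ≤ (k + 2 * (m + 1)).factorial * (k + 2 * (m + 1) + 1) ^ (m + 1) := by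
      have e1 : k + 2 + 2 * m = k + 2 * (m + 1) := by ring
      have a1 : (k + 1 + 2 * m).factorial ≤ (k + 2 * (m + 1)).factorial :=
        Nat.factorial_le (by omega)
      have a2 : (k + 1 + 2 * m + 1) ^ m ≤ (k + 2 * (m + 1) + 1) ^ m :=
        Nat.pow_le_pow_left (by omega) m
      have a3 := Nat.mul_le_mul a1 a2
      rw [e1, pow_succ]
      set P := (k + 2 * (m + 1)).factorial * (k + 2 * (m + 1) + 1) ^ m
      calc P + k * _ ≤ P + k * P := by gcongr
        _ = P * (k + 1) := by ring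
        _ ≤ P * (k + 2 * (m + 1) + 1) := Nat.mul_le_mul_left _ (by omega)
        _ = _ := by simp only [P]; ring
    have h4 : (((k + 2 + 2 * m).factorial * (k + 2 + 2 * m + 1) ^ m : ℕ) : ℝ)
        + k * (((k + 1 + 2 * m).factorial * (k + 1 + 2 * m + 1) ^ m : ℕ) : ℝ)
        ≤ (((k + 2 * (m + 1)).factorial * (k + 2 * (m + 1) + 1) ^ (m + 1) : ℕ) : ℝ) := by
      exact_mod_cast h3
    refine le_trans ?_ h4
    refine (abs_sub _ _).trans (add_le_add h1 ?_)
    rw [abs_mul, Nat.abs_cast]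
    exact mul_le_mul_of_nonneg_left h2 (Nat.cast_nonneg _)

lemma abs_pow_sub_pow_le' {a b : ℝ} (ha0 : 0 ≤ a) (ha1 : a ≤ 1) (hb0 : 0 ≤ b) (hb1 : b ≤ 1)
    (N : ℕ) : |a ^ N - b ^ N| ≤ N * |a - b| := by
  induction N with
  | zero => simp
  | succ N ih =>
    have e : a ^ (N + 1) - b ^ (N + 1) = a * (a ^ N - b ^ N) + (a - b) * b ^ N := by ring
    rw [e]
    have t1 : |a * (a ^ N - b ^ N)| ≤ N * |a - b| := by
      rw [abs_mul, abs_of_nonneg ha0]
      exact (mul_le_of_le_one_left (abs_nonneg _) ha1).trans ih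
    have t2 : |(a - b) * b ^ N| ≤ |a - b| := by
      rw [abs_mul, abs_of_nonneg (pow_nonneg hb0 N)]
      exact mul_le_of_le_one_right (abs_nonneg _) (pow_le_one₀ hb0 hb1)
    push_cast
    linarith [abs_add_le (a * (a ^ N - b ^ N)) ((a - b) * b ^ N)]

lemma exp_neg_approx (y : ℝ) (hy : 0 ≤ y) (N : ℕ) (hN : 0 < N) :
    |Real.exp (-y) - ((1 + y / N)⁻¹) ^ N| ≤ y ^ 2 / N := by
  have hN0 : (0 : ℝ) < N := by exact_mod_cast hN
  set u := y / N with hu
  have hu0 : 0 ≤ u := by positivity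
  have e : Real.exp (-y) = Real.exp (-u) ^ N := by
    rw [← Real.exp_nat_mul]; congr 1; rw [hu]; field_simp
  have h1 : Real.exp (-u) ≤ (1 + u)⁻¹ := by
    rw [Real.exp_neg]
    exact inv_anti₀ (by linarith) (by linarith [Real.add_one_le_exp u])
  have h2 : 1 - u ≤ Real.exp (-u) := by linarith [Real.add_one_le_exp (-u)]
  have h3 : (1 + u)⁻¹ ≤ 1 - u + u ^ 2 := by
    rw [inv_le_iff_one_le_mul₀ (by linarith)]
    nlinarith [pow_nonneg hu0 3]
  have h4 : (1 + u)⁻¹ ≤ 1 := inv_le_one_of_one_le₀ (by linarith)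
  rw [e]
  refine (abs_pow_sub_pow_le' (Real.exp_pos _).le (h1.trans h4) (by positivity) h4 N).trans ?_
  have : |Real.exp (-u) - (1 + u)⁻¹| ≤ u ^ 2 := by
    rw [abs_le]; constructor <;> nlinarith
  refine (mul_le_mul_of_nonneg_left this hN0.le).trans (le_of_eq ?_)
  rw [hu]; field_simp

lemma eff_glue : Eff1 expNegInvGlue := by
  refine ⟨expNegInvGlue.contDiff, ⟨fun m => (0 + 2 * m).factorial * (0 + 2 * m + 1) ^ m, ?_,
    fun m x => ?_⟩, ⟨fun p => if p.1 ≤ 0 then 0 else
      ((1 + p.1⁻¹ / (((p.2 + 1) * p.1.den ^ 2 : ℕ) : ℚ))⁻¹) ^ ((p.2 + 1) * p.1.den ^ 2), ?_,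
      fun q n => ?_⟩⟩
  · have h : Primrec fun m : ℕ => 0 + 2 * m := Primrec.nat_add.comp (Primrec.const 0)
      Primrec.nat_double
    exact Primrec.nat_mul.comp (RatPrim.nat_factorial.comp h)
      (RatPrim.nat_pow (Primrec.succ.comp h) Primrec.id)
  · have e : gk 0 = expNegInvGlue := by funext y; simp [gk]
    rw [← e]; exact gk_bound m 0 x
  · have hN : Primrec fun p : ℚ × ℕ => (p.2 + 1) * p.1.den ^ 2 :=
      Primrec.nat_mul.comp (Primrec.succ.comp Primrec.snd)
        (RatPrim.nat_pow (RatPrim.primrec_den.comp Primrec.fst) (Primrec.const 2))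
    refine Primrec.ite (RatPrim.nonpos Primrec.fst) (Primrec.const 0) ?_
    exact RatPrim.pow (RatPrim.inv (RatPrim.add (Primrec.const 1)
      (RatPrim.div (RatPrim.inv Primrec.fst) (RatPrim.natCast hN)))) hN
  · by_cases h : q ≤ 0
    · have : (q : ℝ) ≤ 0 := by exact_mod_cast h
      simp only [h, if_true, expNegInvGlue.zero_of_nonpos this]
      simp; positivity
    · have hq : (0 : ℝ) < q := by exact_mod_cast not_le.1 h
      have h1 : expNegInvGlue q = Real.exp (-(q : ℝ)⁻¹) := by simp [expNegInvGlue, h]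
      have hd : (0 : ℝ) < q.den := by exact_mod_cast q.den_pos
      have := exp_neg_approx (q : ℝ)⁻¹ (inv_pos.2 hq).le ((n + 1) * q.den ^ 2)
        (by have := q.den_pos; positivity)
      simp only [h, if_false, h1]
      push_cast at this ⊢
      refine this.trans ?_
      have h2 : (q : ℝ)⁻¹ ≤ q.den := by
        have h3 : (q : ℝ) = q.num / q.den := by exact_mod_cast (Rat.num_div_den q).symm
        have h4 : (1 : ℝ) ≤ q.num := by
          have : 0 < q.num := Rat.num_pos.2 (not_le.1 h)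
          exact_mod_cast this
        rw [h3, inv_div]
        exact div_le_self hd.le h4
      have h5 : (q : ℝ)⁻¹ ^ 2 ≤ (q.den : ℝ) ^ 2 := pow_le_pow_left₀ (inv_pos.2 hq).le h2 2
      rw [div_le_div_iff₀ (by positivity) (by positivity)]
      nlinarith [Nat.cast_nonneg (α := ℝ) n]

lemma eff_step : Eff1 Real.smoothTransition := by
  have h1 : Eff1 (fun x => expNegInvGlue (1 - x)) := by
    have := eff_glue.affine (-1) 1
    convert this using 3
    push_cast; ring
  have h2 := (eff_glue.add h1).inv 9 (fun x => by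
    have h3 : Real.exp (-2) ≤ expNegInvGlue x + expNegInvGlue (1 - x) := by
      have h4 : expNegInvGlue (1 / 2) = Real.exp (-2) := by
        simp [expNegInvGlue]
      rcases le_total x (1 / 2) with h | h
      · have := expNegInvGlue.monotone (show (1 / 2 : ℝ) ≤ 1 - x by linarith)
        linarith [expNegInvGlue.nonneg x]
      · have := expNegInvGlue.monotone h
        linarith [expNegInvGlue.nonneg (1 - x)]
    have h5 : Real.exp 2 ≤ 9 := by
      have := Real.exp_one_lt_d9
      have e : Real.exp 2 = Real.exp 1 * Real.exp 1 := by rw [← Real.exp_add]; norm_num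
      have := Real.exp_pos 1
      nlinarith
    have h6 : Real.exp 2 * Real.exp (-2) = 1 := by rw [← Real.exp_add]; simp
    have := Real.exp_pos (-2)
    push_cast
    nlinarith)
  have := eff_glue.mul h2
  convert this using 2
  simp [Real.smoothTransition, div_eq_mul_inv]

end Crest.Agent.R126
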