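import Mathlib
import Crest.Prelude.Def_BoxFlow
import Crest.Agent.R126.Flow
import Crest.Agent.R126.Glue

set_option autoImplicit false

namespace Crest.Agent.R126

open scoped ContDiff NNReal
open Finset Crest.AnalysisR.BoxFlow

/-! ### Divergence-free building blocks -/

lemma direction_succ (j : Fin 3) : direction j.succ = (0, Pi.single j 1) := by
  simp [direction]

lemma spaceDiv_tensor {F : Fin 4 → ℝ → ℝ} (hF : ∀ i, ContDiff ℝ ∞ (F i)) (j0 : Fin 3) (p : ST) :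
    spaceDiv (tensor F (Pi.single j0 1)) p
      = ∏ i, Function.update F j0.succ (deriv (F j0.succ)) i (co i p) := by
  simp only [spaceDiv, ← direction_succ,
    fderiv_tensor (fun i => (hF i).differentiable (by simp)), tensor, Pi.smul_apply, smul_eq_mul]
  rw [Finset.sum_eq_single j0]
  · simp
  · intro j _ hj; simp [Pi.single_eq_of_ne hj]
  · simp

/-- rotation field in the `(x₁, x₃)` plane -/
noncomputable def rot13 (f0 f1 f2 f3 : ℝ → ℝ) : Field := fun p =>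
  tensor ![f0, f1, f2, deriv f3] (Pi.single 0 1) p
    + tensor ![fun t => ((-1 : ℚ) : ℝ) * f0 t, deriv f1, f2, f3] (Pi.single 2 1) p

/-- rotation field in the `(x₂, x₃)` plane -/
noncomputable def rot23 (f0 f1 f2 f3 : ℝ → ℝ) : Field := fun p =>
  tensor ![f0, f1, f2, deriv f3] (Pi.single 1 1) p
    + tensor ![fun t => ((-1 : ℚ) : ℝ) * f0 t, f1, deriv f2, f3] (Pi.single 2 1) p

lemma eff_vec {f0 f1 f2 f3 : ℝ → ℝ} (h0 : Eff1 f0) (h1 : Eff1 f1) (h2 : Eff1 f2) (h3 : Eff1 f3) :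
    ∀ i, Eff1 ((![f0, f1, f2, f3] : Fin 4 → ℝ → ℝ) i) := by
  intro i; fin_cases i
  exacts [h0, h1, h2, h3]

lemma tensor_vec (f0 f1 f2 f3 : ℝ → ℝ) (v : Fin 3 → ℝ) (p : ST) :
    tensor ![f0, f1, f2, f3] v p = (f0 p.1 * f1 (p.2 0) * f2 (p.2 1) * f3 (p.2 2)) • v := by
  simp only [tensor, Fin.prod_univ_four]; rfl

section
variable {f0 f1 f2 f3 : ℝ → ℝ} (h0 : Eff1 f0) (h1 : Eff1 f1) (h2 : Eff1 f2) (h3 : Eff1 f3)
include h0 h1 h2 h3

lemma rot13_eff : EffP (rot13 f0 f1 f2 f3) :=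
  (effP_tensor (eff_vec h0 h1 h2 h3.deriv) 0).add
    (effP_tensor (eff_vec ((Eff1.const (-1)).mul h0) h1.deriv h2 h3) 2)

lemma rot23_eff : EffP (rot23 f0 f1 f2 f3) :=
  (effP_tensor (eff_vec h0 h1 h2 h3.deriv) 1).add
    (effP_tensor (eff_vec ((Eff1.const (-1)).mul h0) h1 h2.deriv h3) 2)

lemma rot13_div (p : ST) : spaceDiv (rot13 f0 f1 f2 f3) p = 0 := by
  have a := fun i => (eff_vec h0 h1 h2 h3.deriv i).smooth
  have b := fun i => (eff_vec ((Eff1.const (-1)).mul h0) h1.deriv h2 h3 i).smooth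
  unfold rot13
  rw [spaceDiv_add (tensor_smooth a _) (tensor_smooth b _), spaceDiv_tensor a, spaceDiv_tensor b]
  simp only [Fin.prod_univ_four]
  show f0 _ * deriv f1 _ * f2 _ * deriv f3 _ + ((-1 : ℚ) : ℝ) * f0 _ * deriv f1 _ * f2 _ * deriv f3 _ = 0
  push_cast; ring

lemma rot23_div (p : ST) : spaceDiv (rot23 f0 f1 f2 f3) p = 0 := by
  have a := fun i => (eff_vec h0 h1 h2 h3.deriv i).smooth
  have b := fun i => (eff_vec ((Eff1.const (-1)).mul h0) h1 h2.deriv h3 i).smooth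
  unfold rot23
  rw [spaceDiv_add (tensor_smooth a _) (tensor_smooth b _), spaceDiv_tensor a, spaceDiv_tensor b]
  simp only [Fin.prod_univ_four]
  show f0 _ * f1 _ * deriv f2 _ * deriv f3 _ + ((-1 : ℚ) : ℝ) * f0 _ * f1 _ * deriv f2 _ * deriv f3 _ = 0
  push_cast; ring

end

/-- vanishing outside of an interval -/
def Supp (u v : ℝ) (g : ℝ → ℝ) : Prop := ∀ y, (y < u ∨ v < y) → g y = 0

lemma Supp.deriv {u v : ℝ} {g : ℝ → ℝ} (h : Supp u v g) : Supp u v (deriv g) := by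
  intro y hy
  have ho : IsOpen {y : ℝ | y < u ∨ v < y} := isOpen_Iio.union isOpen_Ioi
  have : g =ᶠ[nhds y] fun _ => 0 := by
    filter_upwards [ho.mem_nhds hy] with z hz using h z hz
  rw [this.deriv_eq, deriv_const]

/-! ### Cutoff functions -/

/-- cutoff equal to one on `[lo - δ, hi + δ]` and vanishing outside `[lo - 2δ, hi + 2δ]` -/
noncomputable def cut (lo hi δ : ℚ) (y : ℝ) : ℝ :=
  Real.smoothTransition ((1 / δ : ℚ) * y + (2 - lo / δ : ℚ)) *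
    Real.smoothTransition ((-1 / δ : ℚ) * y + (2 + hi / δ : ℚ))

lemma cut_eff (lo hi δ : ℚ) : Eff1 (cut lo hi δ) :=
  (eff_step.affine _ _).mul (eff_step.affine _ _)

lemma cut_supp (lo hi : ℚ) {δ : ℚ} (hδ : 0 < δ) :
    Supp (lo - 2 * δ) (hi + 2 * δ) (cut lo hi δ) := by
  have hδ' : (0 : ℝ) < δ := by exact_mod_cast hδ
  intro y hy
  unfold cut
  rcases hy with h | h
  · rw [Real.smoothTransition.zero_of_nonpos, zero_mul]
    push_cast
    have : 1 / (δ : ℝ) * y + (2 - lo / δ) = (y - (lo - 2 * δ)) / δ := by field_simp; ring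
    rw [this]
    exact div_nonpos_of_nonpos_of_nonneg (by linarith) hδ'.le
  · rw [Real.smoothTransition.zero_of_nonpos (x := _ * y + ((2 + hi / δ : ℚ) : ℝ)), mul_zero]
    push_cast
    have : -1 / (δ : ℝ) * y + (2 + hi / δ) = ((hi + 2 * δ) - y) / δ := by field_simp; ring
    rw [this]
    exact div_nonpos_of_nonpos_of_nonneg (by linarith) hδ'.le

lemma cut_one (lo hi : ℚ) {δ : ℚ} (hδ : 0 < δ) {y : ℝ} (hy : y ∈ Set.Ioo ((lo : ℝ) - δ) (hi + δ)) :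
    cut lo hi δ y = 1 := by
  have hδ' : (0 : ℝ) < δ := by exact_mod_cast hδ
  unfold cut
  rw [Real.smoothTransition.one_of_one_le, Real.smoothTransition.one_of_one_le, one_mul]
  · push_cast
    have : -1 / (δ : ℝ) * y + (2 + hi / δ) = ((hi + 2 * δ) - y) / δ := by field_simp; ring
    rw [this, le_div_iff₀ hδ']; linarith [hy.2]
  · push_cast
    have : 1 / (δ : ℝ) * y + (2 - lo / δ) = (y - (lo - 2 * δ)) / δ := by field_simp; ring
    rw [this, le_div_iff₀ hδ']; linarith [hy.1]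

lemma cut_deriv (lo hi : ℚ) {δ : ℚ} (hδ : 0 < δ) {y : ℝ}
    (hy : y ∈ Set.Ioo ((lo : ℝ) - δ) (hi + δ)) : deriv (cut lo hi δ) y = 0 := by
  have : cut lo hi δ =ᶠ[nhds y] fun _ => 1 := by
    filter_upwards [isOpen_Ioo.mem_nhds hy] with z hz using cut_one lo hi hδ hz
  rw [this.deriv_eq, deriv_const]

/-- the coordinate function cut off -/
noncomputable def icut (lo hi δ : ℚ) (y : ℝ) : ℝ := y * cut lo hi δ y

lemma icut_supp (lo hi : ℚ) {δ : ℚ} (hδ : 0 < δ) :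
    Supp (lo - 2 * δ) (hi + 2 * δ) (icut lo hi δ) := fun y hy => by
  rw [icut, cut_supp lo hi hδ y hy, mul_zero]

lemma icut_eff (lo hi : ℚ) {δ : ℚ} (hδ : 0 < δ) : Eff1 (icut lo hi δ) := by
  obtain ⟨M, hM⟩ := exists_nat_ge (|(lo : ℝ) - 2 * δ| + |(hi : ℝ) + 2 * δ|)
  refine (cut_eff lo hi δ).id_mul M fun y hy => cut_supp lo hi hδ y ?_
  have h1 := abs_nonneg ((lo : ℝ) - 2 * δ)
  have h2 := abs_nonneg ((hi : ℝ) + 2 * δ)
  have h3 := neg_abs_le ((lo : ℝ) - 2 * δ)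
  have h4 := le_abs_self ((hi : ℝ) + 2 * δ)
  rcases abs_cases y with h | h
  · right; linarith [h.1]
  · left; linarith [h.1]

lemma icut_eq (lo hi : ℚ) {δ : ℚ} (hδ : 0 < δ) {y : ℝ}
    (hy : y ∈ Set.Ioo ((lo : ℝ) - δ) (hi + δ)) : icut lo hi δ y = y := by
  rw [icut, cut_one lo hi hδ hy, mul_one]

lemma icut_deriv (lo hi : ℚ) {δ : ℚ} (hδ : 0 < δ) {y : ℝ}
    (hy : y ∈ Set.Ioo ((lo : ℝ) - δ) (hi + δ)) : deriv (icut lo hi δ) y = 1 := by
  have : icut lo hi δ =ᶠ[nhds y] fun z => z := by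
    filter_upwards [isOpen_Ioo.mem_nhds hy] with z hz using icut_eq lo hi hδ hz
  rw [this.deriv_eq, deriv_id'']

/-- the cut-off affine field -/
noncomputable def mv (lo hi : Fin 3 → ℚ) (δ : ℚ) (p0 p1 p2 d0 d1 : ℝ → ℝ) : Field := fun p =>
  rot13 p0 (cut (lo 0) (hi 0) δ) (cut (lo 1) (hi 1) δ) (icut (lo 2) (hi 2) δ) p
  + rot13 d0 (icut (lo 0) (hi 0) δ) (cut (lo 1) (hi 1) δ) (icut (lo 2) (hi 2) δ) p
  + rot13 (fun t => ((-1 : ℚ) : ℝ) * p2 t) (icut (lo 0) (hi 0) δ) (cut (lo 1) (hi 1) δ)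
      (cut (lo 2) (hi 2) δ) p
  + rot23 p1 (cut (lo 0) (hi 0) δ) (cut (lo 1) (hi 1) δ) (icut (lo 2) (hi 2) δ) p
  + rot23 d1 (cut (lo 0) (hi 0) δ) (icut (lo 1) (hi 1) δ) (icut (lo 2) (hi 2) δ) p

lemma mv_plateau (lo hi : Fin 3 → ℚ) {δ : ℚ} (hδ : 0 < δ) (p0 p1 p2 d0 d1 : ℝ → ℝ) (t : ℝ)
    (y : Fin 3 → ℝ) (hy : ∀ j, y j ∈ Set.Ioo ((lo j : ℝ) - δ) (hi j + δ)) :
    mv lo hi δ p0 p1 p2 d0 d1 (t, y)
      = ![p0 t + d0 t * y 0, p1 t + d1 t * y 1, p2 t - (d0 t + d1 t) * y 2] := by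
  simp only [mv, rot13, rot23, tensor_vec, cut_one _ _ hδ (hy _), cut_deriv _ _ hδ (hy _),
    icut_eq _ _ hδ (hy _), icut_deriv _ _ hδ (hy _)]
  funext j
  fin_cases j <;> simp <;> ring

lemma mv_out (lo hi : Fin 3 → ℚ) {δ : ℚ} (hδ : 0 < δ) (p0 p1 p2 d0 d1 : ℝ → ℝ) (p : ST)
    (hy : ∃ j, p.2 j < lo j - 2 * δ ∨ hi j + 2 * δ < p.2 j) :
    mv lo hi δ p0 p1 p2 d0 d1 p = 0 := by
  obtain ⟨j, hj⟩ := hy
  have a1 := cut_supp (lo j) (hi j) hδ _ hj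
  have a2 := (cut_supp (lo j) (hi j) hδ).deriv _ hj
  have a3 := icut_supp (lo j) (hi j) hδ _ hj
  have a4 := (icut_supp (lo j) (hi j) hδ).deriv _ hj
  simp only [mv, rot13, rot23, tensor_vec]
  fin_cases j
  all_goals
    simp only [Fin.zero_eta, Fin.mk_one, Fin.reduceFinMk, Fin.isValue] at a1 a2 a3 a4
    simp [a1, a2, a3, a4]

lemma mv_time (lo hi : Fin 3 → ℚ) (δ : ℚ) (p0 p1 p2 d0 d1 : ℝ → ℝ) (p : ST)
    (h0 : p0 p.1 = 0) (h1 : p1 p.1 = 0) (h2 : p2 p.1 = 0) (h3 : d0 p.1 = 0) (h4 : d1 p.1 = 0) :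
    mv lo hi δ p0 p1 p2 d0 d1 p = 0 := by
  simp [mv, rot13, rot23, tensor_vec, h0, h1, h2, h3, h4]

lemma mv_good (lo hi : Fin 3 → ℚ) {δ : ℚ} (hδ : 0 < δ) {p0 p1 p2 d0 d1 : ℝ → ℝ}
    (e0 : Eff1 p0) (e1 : Eff1 p1) (e2 : Eff1 p2) (e3 : Eff1 d0) (e4 : Eff1 d1) (s0 s1 : ℝ)
    (ht : ∀ t, (t ≤ s0 ∨ s1 ≤ t) → p0 t = 0 ∧ p1 t = 0 ∧ p2 t = 0 ∧ d0 t = 0 ∧ d1 t = 0) :
    Good s0 s1 (mv lo hi δ p0 p1 p2 d0 d1) := by
  have c := fun j => cut_eff (lo j) (hi j) δ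
  have i := fun j => icut_eff (lo j) (hi j) hδ
  have t1 := rot13_eff e0 (c 0) (c 1) (i 2)
  have t2 := rot13_eff e3 (i 0) (c 1) (i 2)
  have t3 := rot13_eff ((Eff1.const (-1)).mul e2) (i 0) (c 1) (c 2)
  have t4 := rot23_eff e1 (c 0) (c 1) (i 2)
  have t5 := rot23_eff e4 (c 0) (i 1) (i 2)
  have htime : ∀ p : ST, (p.1 ≤ s0 ∨ s1 ≤ p.1) → mv lo hi δ p0 p1 p2 d0 d1 p = 0 := fun p hp => by
    obtain ⟨a, b, c, d, e⟩ := ht _ hp
    exact mv_time lo hi δ _ _ _ _ _ p a b c d e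
  refine ⟨(((t1.add t2).add t3).add t4).add t5, ?_, htime, fun p => ?_⟩
  · refine HasCompactSupport.intro (K := Set.Icc s0 s1 ×ˢ
      Set.Icc (fun j => (lo j : ℝ) - 2 * δ) (fun j => (hi j : ℝ) + 2 * δ))
      (isCompact_Icc.prod isCompact_Icc) fun p hp => ?_
    rw [Set.mem_prod, not_and_or] at hp
    rcases hp with h | h
    · apply htime
      rw [Set.mem_Icc, not_and_or, not_le, not_le] at h
      exact h.imp le_of_lt le_of_lt
    · apply mv_out lo hi hδ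
      rw [Set.mem_Icc, not_and_or, Pi.le_def, Pi.le_def, not_forall, not_forall] at h
      rcases h with ⟨j, h⟩ | ⟨j, h⟩
      · exact ⟨j, Or.inl (not_le.1 h)⟩
      · exact ⟨j, Or.inr (not_le.1 h)⟩
  · unfold mv
    rw [spaceDiv_add (((t1.add t2).add t3).add t4).1 t5.1, spaceDiv_add ((t1.add t2).add t3).1 t4.1,
      spaceDiv_add (t1.add t2).1 t3.1, spaceDiv_add t1.1 t2.1, rot13_div e0 (c 0) (c 1) (i 2),
      rot13_div e3 (i 0) (c 1) (i 2), rot13_div ((Eff1.const (-1)).mul e2) (i 0) (c 1) (c 2),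
      rot23_div e1 (c 0) (c 1) (i 2), rot23_div e4 (c 0) (i 1) (i 2)]
    simp

end Crest.Agent.R126
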