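import Mathlib
import Crest.Prelude.Def_BoxFlow
import Crest.Agent.R126.Move

set_option autoImplicit false

namespace Crest.Agent.R126

open scoped ContDiff NNReal
open Finset Crest.AnalysisR.BoxFlow

/-- time profile -/
noncomputable def th (s0 s1 : ℚ) (t : ℝ) : ℝ :=
  Real.smoothTransition ((1 / (s1 - s0) : ℚ) * t + (-s0 / (s1 - s0) : ℚ))

lemma th_eff (s0 s1 : ℚ) : Eff1 (th s0 s1) := eff_step.affine _ _

lemma th_nonneg (s0 s1 : ℚ) (t : ℝ) : 0 ≤ th s0 s1 t := Real.smoothTransition.nonneg _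

lemma th_le_one (s0 s1 : ℚ) (t : ℝ) : th s0 s1 t ≤ 1 := Real.smoothTransition.le_one _

lemma th_zero {s0 s1 : ℚ} (hs : s0 < s1) {t : ℝ} (ht : t ≤ s0) : th s0 s1 t = 0 := by
  have hs' : (0 : ℝ) < s1 - s0 := by exact_mod_cast sub_pos.2 hs
  apply Real.smoothTransition.zero_of_nonpos
  push_cast
  have : 1 / ((s1 : ℝ) - s0) * t + -s0 / (s1 - s0) = (t - s0) / (s1 - s0) := by field_simp; ring
  rw [this]
  exact div_nonpos_of_nonpos_of_nonneg (by linarith) hs'.le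

lemma th_one {s0 s1 : ℚ} (hs : s0 < s1) {t : ℝ} (ht : (s1 : ℝ) ≤ t) : th s0 s1 t = 1 := by
  have hs' : (0 : ℝ) < s1 - s0 := by exact_mod_cast sub_pos.2 hs
  apply Real.smoothTransition.one_of_one_le
  push_cast
  have : 1 / ((s1 : ℝ) - s0) * t + -s0 / (s1 - s0) = (t - s0) / (s1 - s0) := by field_simp; ring
  rw [this, le_div_iff₀ hs']; linarith

lemma th_deriv {s0 s1 : ℚ} (hs : s0 < s1) {t : ℝ} (ht : t ≤ s0 ∨ (s1 : ℝ) ≤ t) :
    deriv (th s0 s1) t = 0 := by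
  rcases ht with h | h
  · apply IsLocalMin.deriv_eq_zero
    refine Filter.Eventually.of_forall fun u => ?_
    rw [th_zero hs h]; exact th_nonneg _ _ _
  · apply IsLocalMax.deriv_eq_zero
    refine Filter.Eventually.of_forall fun u => ?_
    rw [th_one hs h]; exact th_le_one _ _ _

lemma th_hasDeriv (s0 s1 : ℚ) (t : ℝ) : HasDerivAt (th s0 s1) (deriv (th s0 s1) t) t :=
  ((th_eff s0 s1).smooth.differentiable (by simp) t).hasDerivAt

/-- interpolation between two rational numbers -/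
noncomputable def ip (s0 s1 u v : ℚ) (t : ℝ) : ℝ := (u : ℝ) + th s0 s1 t * ((v - u : ℚ) : ℝ)

lemma ip_eff (s0 s1 u v : ℚ) : Eff1 (ip s0 s1 u v) :=
  (Eff1.const u).add ((th_eff s0 s1).mul (Eff1.const _))

lemma ip_hasDeriv (s0 s1 u v : ℚ) (t : ℝ) :
    HasDerivAt (ip s0 s1 u v) (deriv (th s0 s1) t * ((v - u : ℚ) : ℝ)) t :=
  ((th_hasDeriv s0 s1 t).mul_const _).const_add _

lemma ip_pos (s0 s1 : ℚ) {r : ℚ} (hr : 0 < r) (t : ℝ) : min 1 (r : ℝ) ≤ ip s0 s1 1 r t := by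
  have h0 := th_nonneg s0 s1 t
  have h1 := th_le_one s0 s1 t
  have a := min_le_left 1 (r : ℝ)
  have b := min_le_right 1 (r : ℝ)
  simp only [ip]; push_cast
  nlinarith

lemma ip_pos' (s0 s1 : ℚ) {r : ℚ} (hr : 0 < r) (t : ℝ) : 0 < ip s0 s1 1 r t :=
  lt_of_lt_of_le (lt_min one_pos (by exact_mod_cast hr)) (ip_pos s0 s1 hr t)

lemma ip_inv_eff (s0 s1 : ℚ) {r : ℚ} (hr : 0 < r) : Eff1 (fun t => (ip s0 s1 1 r t)⁻¹) := by
  have hm : (0 : ℝ) < min 1 (r : ℝ) := lt_min one_pos (by exact_mod_cast hr)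
  obtain ⟨K, hK⟩ := exists_nat_ge (1 / min 1 (r : ℝ))
  refine (ip_eff s0 s1 1 r).inv K fun t => ?_
  rw [div_le_iff₀ hm] at hK
  exact hK.trans (mul_le_mul_of_nonneg_left (ip_pos s0 s1 hr t) (Nat.cast_nonneg _))

lemma ip_le (s0 s1 : ℚ) {r : ℚ} (hr : 0 < r) (t : ℝ) : ip s0 s1 1 r t ≤ 1 + r := by
  have h0 := th_nonneg s0 s1 t
  have h1 := th_le_one s0 s1 t
  have : (0 : ℝ) < r := by exact_mod_cast hr
  simp only [ip]; push_cast
  nlinarith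

lemma rpow_le_ip (s0 s1 : ℚ) {r : ℚ} (hr : 0 < r) (t : ℝ) :
    (r : ℝ) ^ th s0 s1 t ≤ ip s0 s1 1 r t := by
  have h0 := th_nonneg s0 s1 t
  have h1 := th_le_one s0 s1 t
  have hr' : (0 : ℝ) < r := by exact_mod_cast hr
  have := Real.geom_mean_le_arith_mean2_weighted (w₁ := 1 - th s0 s1 t) (w₂ := th s0 s1 t)
    (p₁ := 1) (p₂ := r) (by linarith) h0 zero_le_one hr'.le (by ring)
  simp only [Real.one_rpow, one_mul] at this
  simp only [ip]; push_cast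
  linarith

lemma ip_prod (s0 s1 : ℚ) {r0 r1 r2 : ℚ} (h0 : 0 < r0) (h1 : 0 < r1) (h2 : 0 < r2)
    (hp : r0 * r1 * r2 = 1) (t : ℝ) :
    (ip s0 s1 1 r0 t * ip s0 s1 1 r1 t)⁻¹ ≤ ip s0 s1 1 r2 t := by
  have a0 : (0 : ℝ) < r0 := by exact_mod_cast h0
  have a1 : (0 : ℝ) < r1 := by exact_mod_cast h1
  have a2 : (0 : ℝ) < r2 := by exact_mod_cast h2
  have hp' : (r0 : ℝ) * r1 * r2 = 1 := by exact_mod_cast hp
  rw [inv_le_iff_one_le_mul₀' (mul_pos (ip_pos' s0 s1 h0 t) (ip_pos' s0 s1 h1 t))]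
  have e : (r0 : ℝ) ^ th s0 s1 t * (r1 : ℝ) ^ th s0 s1 t * (r2 : ℝ) ^ th s0 s1 t = 1 := by
    rw [← Real.mul_rpow a0.le a1.le, ← Real.mul_rpow (mul_pos a0 a1).le a2.le, hp', Real.one_rpow]
  rw [← e]
  have b0 := rpow_le_ip s0 s1 h0 t
  have b1 := rpow_le_ip s0 s1 h1 t
  have b2 := rpow_le_ip s0 s1 h2 t
  have := ip_pos' s0 s1 h0 t
  have := ip_pos' s0 s1 h1 t
  gcongr

/-- logarithmic derivative of the stretching factor -/
noncomputable def dd (s0 s1 r : ℚ) (t : ℝ) : ℝ :=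
  deriv (th s0 s1) t * ((r - 1 : ℚ) : ℝ) * (ip s0 s1 1 r t)⁻¹

lemma dd_eff (s0 s1 : ℚ) {r : ℚ} (hr : 0 < r) : Eff1 (dd s0 s1 r) :=
  ((th_eff s0 s1).deriv.mul (Eff1.const _)).mul (ip_inv_eff s0 s1 hr)

lemma ip_hasDeriv' (s0 s1 : ℚ) {r : ℚ} (hr : 0 < r) (t : ℝ) :
    HasDerivAt (ip s0 s1 1 r) (dd s0 s1 r t * ip s0 s1 1 r t) t := by
  refine (ip_hasDeriv s0 s1 1 r t).congr_deriv ?_
  rw [dd, mul_assoc _ _ (ip s0 s1 1 r t), inv_mul_cancel₀ (ip_pos' s0 s1 hr t).ne', mul_one]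

/-- A single box is moved inside a region that avoids everything else. -/
theorem move_one (B B' : (Fin 3 → ℚ) × (Fin 3 → ℚ)) (hB : ∀ j, 0 < B.2 j) (hB' : ∀ j, 0 < B'.2 j)
    (hvol : ∏ j, B'.2 j / B.2 j = 1) (lo hi : Fin 3 → ℚ)
    (hlo : ∀ j, lo j ≤ B.1 j - B.2 j) (hlo' : ∀ j, lo j ≤ B'.1 j - B'.2 j)
    (hhi : ∀ j, B.1 j + B.2 j ≤ hi j) (hhi' : ∀ j, B'.1 j + B'.2 j ≤ hi j)
    (δ : ℚ) (hδ : 0 < δ) (s0 s1 : ℚ) (hs : s0 < s1) :
    ∃ U, Good s0 s1 U ∧ Carries s0 s1 U B B' ∧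
      ∀ p : ST, (∃ j, p.2 j < lo j - 2 * δ ∨ hi j + 2 * δ < p.2 j) → U p = 0 := by
  set r : Fin 3 → ℚ := fun j => B'.2 j / B.2 j with hr
  have hr0 : ∀ j, 0 < r j := fun j => div_pos (hB' j) (hB j)
  have hr1 : r 0 * r 1 * r 2 = 1 := by rw [← hvol, Fin.prod_univ_three]
  let d0 := dd s0 s1 (r 0)
  let d1 := dd s0 s1 (r 1)
  let c : Fin 3 → ℝ → ℝ := fun j => ip s0 s1 (B.1 j) (B'.1 j)
  let v : Fin 3 → ℝ → ℝ := fun j t => deriv (th s0 s1) t * ((B'.1 j - B.1 j : ℚ) : ℝ)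
  let p0 : ℝ → ℝ := fun t => v 0 t + ((-1 : ℚ) : ℝ) * (d0 t * c 0 t)
  let p1 : ℝ → ℝ := fun t => v 1 t + ((-1 : ℚ) : ℝ) * (d1 t * c 1 t)
  let p2 : ℝ → ℝ := fun t => v 2 t + (d0 t + d1 t) * c 2 t
  have ed0 : Eff1 d0 := dd_eff s0 s1 (hr0 0)
  have ed1 : Eff1 d1 := dd_eff s0 s1 (hr0 1)
  have ec : ∀ j, Eff1 (c j) := fun j => ip_eff _ _ _ _
  have ev : ∀ j, Eff1 (v j) := fun j => (th_eff s0 s1).deriv.mul (Eff1.const _)
  have e0 : Eff1 p0 := (ev 0).add ((Eff1.const _).mul (ed0.mul (ec 0)))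
  have e1 : Eff1 p1 := (ev 1).add ((Eff1.const _).mul (ed1.mul (ec 1)))
  have e2 : Eff1 p2 := (ev 2).add ((ed0.add ed1).mul (ec 2))
  refine ⟨mv lo hi δ p0 p1 p2 d0 d1, mv_good lo hi hδ e0 e1 e2 ed0 ed1 s0 s1 fun t ht => ?_, ?_,
    fun p hp => mv_out lo hi hδ _ _ _ _ _ p hp⟩
  · have := th_deriv hs ht
    simp [p0, p1, p2, d0, d1, v, dd, this]
  let lam : Fin 3 → ℝ → ℝ := ![ip s0 s1 1 (r 0), ip s0 s1 1 (r 1),
    fun t => (ip s0 s1 1 (r 0) t * ip s0 s1 1 (r 1) t)⁻¹]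
  have hlam0 : ∀ j t, 0 < lam j t := by
    intro j t
    fin_cases j
    · exact ip_pos' s0 s1 (hr0 0) t
    · exact ip_pos' s0 s1 (hr0 1) t
    · exact inv_pos.2 (mul_pos (ip_pos' s0 s1 (hr0 0) t) (ip_pos' s0 s1 (hr0 1) t))
  have hlam1 : ∀ j t, lam j t ≤ ip s0 s1 1 (r j) t := by
    intro j t
    fin_cases j
    · exact le_rfl
    · exact le_rfl
    · exact ip_prod s0 s1 (hr0 0) (hr0 1) (hr0 2) hr1 t
  have hδ' : (0 : ℝ) < δ := by exact_mod_cast hδ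
  refine ⟨{x | ∀ j, (|x j - B.1 j| - B.2 j) * (1 + r j) < δ}, ?_, fun x hx j => ?_,
    fun x hx => ⟨fun t j => c j t + lam j t * (x j - B.1 j), fun t => ?_, fun t ht => ?_,
      fun t ht => ?_⟩⟩
  · rw [Set.ofPred_forall]
    refine isOpen_iInter_of_finite fun j => isOpen_lt ?_ continuous_const
    fun_prop
  · have h1 : (0 : ℝ) < r j := by exact_mod_cast hr0 j
    have := mul_nonpos_of_nonpos_of_nonneg (sub_nonpos.2 (hx j)) (by linarith : (0 : ℝ) ≤ 1 + r j)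
    linarith
  · have hin : ∀ j, c j t + lam j t * (x j - B.1 j) ∈ Set.Ioo ((lo j : ℝ) - δ) (hi j + δ) := by
      intro j
      have a0 := th_nonneg s0 s1 t
      have a1 := th_le_one s0 s1 t
      have hb : (0 : ℝ) < B.2 j := by exact_mod_cast hB j
      have h1 : (0 : ℝ) < r j := by exact_mod_cast hr0 j
      have hrk : (r j : ℝ) * B.2 j = B'.2 j := by
        simp only [hr]; push_cast; field_simp
      have h2 : lam j t * |x j - B.1 j| < ip s0 s1 1 (r j) t * B.2 j + δ := by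
        have b1 := hlam0 j t
        have b2 := hlam1 j t
        have b3 := ip_le s0 s1 (hr0 j) t
        have b4 := hx j
        rcases le_or_gt (|x j - B.1 j| - B.2 j) 0 with h | h
        · nlinarith
        · nlinarith
      have h3 : ip s0 s1 1 (r j) t * B.2 j = (1 - th s0 s1 t) * B.2 j + th s0 s1 t * B'.2 j := by
        simp only [ip]; push_cast; rw [← hrk]; ring
      have h4 : c j t = (1 - th s0 s1 t) * B.1 j + th s0 s1 t * B'.1 j := by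
        simp only [c, ip]; push_cast; ring
      have q1 : (lo j : ℝ) ≤ B.1 j - B.2 j := by exact_mod_cast hlo j
      have q2 : (lo j : ℝ) ≤ B'.1 j - B'.2 j := by exact_mod_cast hlo' j
      have q3 : (B.1 j : ℝ) + B.2 j ≤ hi j := by exact_mod_cast hhi j
      have q4 : (B'.1 j : ℝ) + B'.2 j ≤ hi j := by exact_mod_cast hhi' j
      have h5 : |lam j t * (x j - B.1 j)| < (1 - th s0 s1 t) * B.2 j + th s0 s1 t * B'.2 j + δ := by
        rw [abs_mul, abs_of_pos (hlam0 j t), ← h3]; exact h2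
      rw [abs_lt] at h5
      have a2 : 0 ≤ 1 - th s0 s1 t := by linarith
      rw [h4]
      constructor
      · nlinarith [mul_le_mul_of_nonneg_left q1 a2, mul_le_mul_of_nonneg_left q2 a0, h5.1]
      · nlinarith [mul_le_mul_of_nonneg_left q3 a2, mul_le_mul_of_nonneg_left q4 a0, h5.2]
    rw [mv_plateau lo hi hδ _ _ _ _ _ t _ hin, hasDerivAt_pi]
    have g0 := ip_hasDeriv' s0 s1 (hr0 0) t
    have g1 := ip_hasDeriv' s0 s1 (hr0 1) t
    have n0 := (ip_pos' s0 s1 (hr0 0) t).ne'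
    have n1 := (ip_pos' s0 s1 (hr0 1) t).ne'
    have g2 := (g0.mul g1).inv (mul_ne_zero n0 n1)
    intro j
    fin_cases j
    · refine ((ip_hasDeriv s0 s1 (B.1 0) (B'.1 0) t).add (g0.mul_const (x 0 - B.1 0))).congr_deriv ?_
      simp [p0, v, d0, lam, c]; ring
    · refine ((ip_hasDeriv s0 s1 (B.1 1) (B'.1 1) t).add (g1.mul_const (x 1 - B.1 1))).congr_deriv ?_
      simp [p1, v, d1, lam, c]; ring
    · refine ((ip_hasDeriv s0 s1 (B.1 2) (B'.1 2) t).add (g2.mul_const (x 2 - B.1 2))).congr_deriv ?_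
      simp [p2, v, d0, d1, lam, c]; field_simp; ring
  · funext j
    fin_cases j <;> simp [c, lam, ip, th_zero hs ht]
  · funext j
    have h2 : (r 2 : ℝ) = ((r 0 : ℝ) * r 1)⁻¹ := by
      have : (r 0 : ℝ) * r 1 * r 2 = 1 := by exact_mod_cast hr1
      exact eq_inv_of_mul_eq_one_right this
    have h3 : ∀ j, ((B'.2 j / B.2 j : ℚ) : ℝ) = r j := fun j => rfl
    simp only [aff, h3]
    fin_cases j <;> simp [c, lam, ip, th_one hs ht, h2]

/-- an elementary move of a configuration -/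
def Step {n : ℕ} (c c' : Cfg n) : Prop :=
  Pos c ∧ Pos c' ∧ ∃ i, (∀ l, l ≠ i → c' l = c l) ∧ ∏ j, (c' i).2 j / (c i).2 j = 1 ∧
    ∃ lo hi : Fin 3 → ℚ, (∀ j, lo j ≤ (c i).1 j - (c i).2 j) ∧ (∀ j, lo j ≤ (c' i).1 j - (c' i).2 j) ∧
      (∀ j, (c i).1 j + (c i).2 j ≤ hi j) ∧ (∀ j, (c' i).1 j + (c' i).2 j ≤ hi j) ∧
      ∀ l, l ≠ i → ∃ j, (c l).1 j + (c l).2 j < lo j ∨ hi j < (c l).1 j - (c l).2 j

lemma exists_small {ι : Type*} [Fintype ι] (g : ι → ℚ) (hg : ∀ i, 0 < g i) :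
    ∃ δ : ℚ, 0 < δ ∧ ∀ i, 2 * δ < g i := by
  rcases isEmpty_or_nonempty ι with h | h
  · exact ⟨1, one_pos, fun i => (h.false i).elim⟩
  · obtain ⟨i, _, hi⟩ := Finset.exists_min_image univ g Finset.univ_nonempty
    exact ⟨g i / 3, by linarith [hg i], fun l => by linarith [hi l (mem_univ l), hg i]⟩

theorem Step.reach {n : ℕ} {c c' : Cfg n} (h : Step c c') : Reach c c' := by
  obtain ⟨hc, hc', i, hoth, hvol, lo, hi, h1, h2, h3, h4, hsep⟩ := h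
  intro s0 s1 hs
  choose J hJ using fun l : {l // l ≠ i} => hsep l.1 l.2
  obtain ⟨δ, hδ, hδ'⟩ := exists_small (fun l : {l // l ≠ i} =>
    max (lo (J l) - ((c l).1 (J l) + (c l).2 (J l))) ((c l).1 (J l) - (c l).2 (J l) - hi (J l)))
    (fun l => by
      rcases hJ l with h | h
      · exact lt_max_of_lt_left (by linarith)
      · exact lt_max_of_lt_right (by linarith))
  obtain ⟨U, gU, cU, zU⟩ := move_one (c i) (c' i) (hc i) (hc' i) hvol lo hi h1 h2 h3 h4 δ hδ s0 s1 hs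
  refine ⟨U, gU, fun l => ?_⟩
  by_cases hl : l = i
  · subst hl; exact cU
  · rw [hoth l hl]
    refine ⟨{x | x (J ⟨l, hl⟩) < lo (J ⟨l, hl⟩) - 2 * δ ∨ hi (J ⟨l, hl⟩) + 2 * δ < x (J ⟨l, hl⟩)},
      (isOpen_lt (continuous_apply _) continuous_const).union
        (isOpen_lt continuous_const (continuous_apply _)), fun x hx => ?_, fun x hx =>
      ⟨fun _ => x, fun t => ?_, fun _ _ => rfl, fun _ _ => (aff_self (hc l) x).symm⟩⟩
    · have h5 := hδ' ⟨l, hl⟩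
      have h6 := abs_le.1 (hx (J ⟨l, hl⟩))
      rcases lt_max_iff.1 h5 with h | h
      · left
        have : (2 : ℝ) * δ < lo (J ⟨l, hl⟩) - ((c l).1 (J ⟨l, hl⟩) + (c l).2 (J ⟨l, hl⟩)) := by
          exact_mod_cast h
        linarith [h6.2]
      · right
        have : (2 : ℝ) * δ < (c l).1 (J ⟨l, hl⟩) - (c l).2 (J ⟨l, hl⟩) - hi (J ⟨l, hl⟩) := by
          exact_mod_cast h
        linarith [h6.1]
    · rw [zU (t, x) ⟨_, hx⟩]
      exact hasDerivAt_const t x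

end Crest.Agent.R126
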