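import Mathlib
import Crest.Prelude.Def_BoxFlow
import Crest.Agent.R126.Step

set_option autoImplicit false

namespace Crest.Agent.R126

open Finset Crest.AnalysisR.BoxFlow

lemma Step.symm {n : ℕ} {c c' : Cfg n} (h : Step c c') : Step c' c := by
  obtain ⟨hc, hc', i, hoth, hvol, lo, hi, h1, h2, h3, h4, hsep⟩ := h
  refine ⟨hc', hc, i, fun l hl => (hoth l hl).symm, ?_, lo, hi, h2, h1, h4, h3, fun l hl => ?_⟩
  · have : ∏ j, (c i).2 j / (c' i).2 j = (∏ j, (c' i).2 j / (c i).2 j)⁻¹ := by
      rw [← Finset.prod_inv_distrib]
      exact Finset.prod_congr rfl fun j _ => (inv_div _ _).symm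
    rw [this, hvol, inv_one]
  · rw [hoth l hl]; exact hsep l hl

lemma conn_symm {n : ℕ} {c c' : Cfg n} (h : Relation.ReflTransGen Step c c') :
    Relation.ReflTransGen Step c' c := by
  induction h with
  | refl => exact .refl
  | tail _ h2 ih => exact .head h2.symm ih

lemma conn_reach {n : ℕ} {c c' : Cfg n} (hc : Pos c) (h : Relation.ReflTransGen Step c c') :
    Reach c c' := by
  induction h with
  | refl => exact Reach.refl hc
  | tail _ h2 ih => exact Reach.trans hc h2.1 ih h2.reach

lemma step_update {n : ℕ} {m : Cfg n} (hm : Pos m) (i : Fin n) (B B' : (Fin 3 → ℚ) × (Fin 3 → ℚ))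
    (hB : ∀ j, 0 < B.2 j) (hB' : ∀ j, 0 < B'.2 j) (hvol : ∏ j, B'.2 j / B.2 j = 1)
    (lo hi : Fin 3 → ℚ)
    (hlo : ∀ j, lo j ≤ B.1 j - B.2 j) (hlo' : ∀ j, lo j ≤ B'.1 j - B'.2 j)
    (hhi : ∀ j, B.1 j + B.2 j ≤ hi j) (hhi' : ∀ j, B'.1 j + B'.2 j ≤ hi j)
    (hsep : ∀ l, l ≠ i → ∃ j, (m l).1 j + (m l).2 j < lo j ∨ hi j < (m l).1 j - (m l).2 j) :
    Step (Function.update m i B) (Function.update m i B') := by
  have hp : ∀ C : (Fin 3 → ℚ) × (Fin 3 → ℚ), (∀ j, 0 < C.2 j) → Pos (Function.update m i C) := by
    intro C hC l j
    by_cases h : l = i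
    · subst h; simpa using hC j
    · rw [Function.update_of_ne h]; exact hm l j
  refine ⟨hp B hB, hp B' hB', i, fun l hl => by simp [Function.update_of_ne hl], by simpa using hvol,
    lo, hi, by simpa using hlo, by simpa using hlo', by simpa using hhi, by simpa using hhi',
    fun l hl => ?_⟩
  rw [Function.update_of_ne hl]; exact hsep l hl

lemma sep_of_disjoint {a h a' h' : Fin 3 → ℚ} (hh : ∀ j, 0 < h j) (hh' : ∀ j, 0 < h' j)
    (hd : Disjoint (box a h) (box a' h')) :
    ∃ j, a' j + h' j < a j - h j ∨ a j + h j < a' j - h' j := by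
  by_contra hc
  simp only [not_exists, not_or, not_lt] at hc
  rw [Set.disjoint_left] at hd
  refine @hd (fun j => ((max (a j - h j) (a' j - h' j) : ℚ) : ℝ)) (fun j => ?_) (fun j => ?_)
  · have : |max (a j - h j) (a' j - h' j) - a j| ≤ h j := by
      rw [abs_le]
      constructor
      · linarith [le_max_left (a j - h j) (a' j - h' j)]
      · have := max_le (show a j - h j ≤ a j + h j by linarith [hh j]) (hc j).2
        linarith
    beta_reduce
    exact_mod_cast this
  · have : |max (a j - h j) (a' j - h' j) - a' j| ≤ h' j := by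
      rw [abs_le]
      constructor
      · linarith [le_max_right (a j - h j) (a' j - h' j)]
      · have := max_le (hc j).1 (show a' j - h' j ≤ a' j + h' j by linarith [hh' j])
        linarith
    beta_reduce
    exact_mod_cast this

/-- parking position -/
def park {n : ℕ} (k : Fin n → Fin 3 → ℚ) (W : ℚ) : Cfg n :=
  fun i => (![3 * W * ((i : ℕ) + 1), 0, 0], k i)

theorem to_park {n : ℕ} (a h k : Fin n → Fin 3 → ℚ) (hh : ∀ i j, 0 < h i j) (hk : ∀ i j, 0 < k i j)
    (ha : Pairwise fun i i' => Disjoint (box (a i) (h i)) (box (a i') (h i')))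
    (hvol : ∀ i, ∏ j : Fin 3, k i j / h i j = 1) (W : ℚ) (hW0 : 0 < W)
    (hW : ∀ i j, |a i j| + h i j ≤ W) (hW' : ∀ i j, k i j ≤ W) :
    Relation.ReflTransGen Step (fun i => (a i, h i)) (park k W) := by
  classical
  let mix : Finset (Fin n) → Cfg n := fun s i => if i ∈ s then (a i, h i) else park k W i
  have hmix : ∀ s, Pos (mix s) := by
    intro s i j
    simp only [mix]
    split_ifs
    · exact hh i j
    · exact hk i j
  have hu : ∀ i j, a i j + h i j ≤ W := fun i j => by linarith [hW i j, le_abs_self (a i j)]
  have hl : ∀ i j, -W ≤ a i j - h i j := fun i j => by linarith [hW i j, neg_abs_le (a i j)]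
  have hhW : ∀ i j, h i j ≤ W := fun i j => by linarith [hW i j, abs_nonneg (a i j)]
  have key : ∀ s : Finset (Fin n), Relation.ReflTransGen Step (mix s) (park k W) := by
    intro s
    induction s using Finset.induction_on_max_value (fun i => a i 2) with
    | empty =>
      have : mix ∅ = park k W := by funext i; simp [mix]
      rw [this]
    | insert i s hi hmax ih =>
      have e0 : mix (insert i s) = Function.update (mix s) i (a i, h i) := by
        funext l
        by_cases h : l = i
        · subst h; simp [mix]
        · simp [mix, h]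
      have e3 : mix s = Function.update (mix s) i (park k W i) := by
        funext l
        by_cases h : l = i
        · subst h; simp [mix, hi]
        · simp [h]
      have hi0 : (0 : ℚ) ≤ (i : ℕ) := Nat.cast_nonneg _
      have hWi : 0 ≤ W * (i : ℕ) := mul_nonneg hW0.le hi0
      have s1 : Step (Function.update (mix s) i (a i, h i))
          (Function.update (mix s) i (![a i 0, a i 1, 3 * W], h i)) := by
        refine step_update (hmix s) i _ _ (hh i) (hh i) ?_ (fun j => a i j - h i j)
          ![a i 0 + h i 0, a i 1 + h i 1, 4 * W] (fun j => le_rfl) (fun j => ?_) (fun j => ?_)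
          (fun j => ?_) (fun l hl' => ?_)
        · exact Finset.prod_eq_one fun j _ => div_self (hh i j).ne'
        · fin_cases j <;> simp
          linarith [hu i 2, hh i 2]
        · fin_cases j <;> simp
          linarith [hu i 2]
        · fin_cases j <;> simp
          linarith [hhW i 2]
        · by_cases hs : l ∈ s
          · simp only [mix, hs, if_true]
            obtain ⟨j, hj⟩ := sep_of_disjoint (hh i) (hh l) (ha (Ne.symm hl'))
            refine ⟨j, ?_⟩
            fin_cases j
            · simpa using hj
            · simpa using hj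
            · left
              rcases hj with hj | hj
              · exact hj
              · have := hmax l hs
                simp only [Fin.reduceFinMk] at hj
                linarith [hh i 2, hh l 2]
          · simp only [mix, hs, if_false, park]
            refine ⟨0, Or.inr ?_⟩
            have : 0 ≤ W * (l : ℕ) := mul_nonneg hW0.le (Nat.cast_nonneg _)
            simp
            nlinarith [hu i 0, hW' l 0]
      have s2 : Step (Function.update (mix s) i (![a i 0, a i 1, 3 * W], h i))
          (Function.update (mix s) i (![3 * W * ((i : ℕ) + 1), 0, 3 * W], k i)) := by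
        refine step_update (hmix s) i _ _ (hh i) (hk i) (hvol i) ![-W, -W, 2 * W]
          ![3 * W * ((i : ℕ) + 1) + W, W, 4 * W] (fun j => ?_) (fun j => ?_) (fun j => ?_)
          (fun j => ?_) (fun l hl' => ⟨2, Or.inl ?_⟩)
        · fin_cases j <;> simp
          · linarith [hl i 0]
          · linarith [hl i 1]
          · linarith [hhW i 2]
        · fin_cases j <;> simp
          · nlinarith [hW' i 0]
          · linarith [hW' i 1]
          · linarith [hW' i 2]
        · fin_cases j <;> simp
          · nlinarith [hu i 0]
          · linarith [hu i 1]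
          · linarith [hhW i 2]
        · fin_cases j <;> simp
          · linarith [hW' i 0]
          · linarith [hW' i 1]
          · linarith [hW' i 2]
        · by_cases hs : l ∈ s
          · simp [mix, hs]; linarith [hu l 2]
          · simp [mix, hs, park]; linarith [hW' l 2]
      have s3 : Step (Function.update (mix s) i (![3 * W * ((i : ℕ) + 1), 0, 3 * W], k i))
          (Function.update (mix s) i (park k W i)) := by
        refine step_update (hmix s) i _ _ (hk i) (hk i) ?_ ![3 * W * ((i : ℕ) + 1) - W, -W, -W]
          ![3 * W * ((i : ℕ) + 1) + W, W, 4 * W] (fun j => ?_) (fun j => ?_) (fun j => ?_)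
          (fun j => ?_) (fun l hl' => ⟨0, ?_⟩)
        · exact Finset.prod_eq_one fun j _ => div_self (hk i j).ne'
        · fin_cases j <;> simp
          · linarith [hW' i 0]
          · linarith [hW' i 1]
          · linarith [hW' i 2]
        · fin_cases j <;> simp [park]
          · linarith [hW' i 0]
          · linarith [hW' i 1]
          · linarith [hW' i 2]
        · fin_cases j <;> simp
          · linarith [hW' i 0]
          · linarith [hW' i 1]
          · linarith [hW' i 2]
        · fin_cases j <;> simp [park]
          · linarith [hW' i 0]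
          · linarith [hW' i 1]
          · linarith [hW' i 2]
        · by_cases hs : l ∈ s
          · left; simp [mix, hs]; nlinarith [hu l 0]
          · rcases lt_or_gt_of_ne hl' with h | h
            · left
              have : ((l : ℕ) : ℚ) + 1 ≤ (i : ℕ) := by exact_mod_cast h
              simp [mix, hs, park]; nlinarith [hW' l 0]
            · right
              have : ((i : ℕ) : ℚ) + 1 ≤ (l : ℕ) := by exact_mod_cast h
              simp [mix, hs, park]; nlinarith [hW' l 0]
      rw [← e3] at s3
      rw [e0]
      exact .head s1 (.head s2 (.head s3 ih))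
  have : mix univ = fun i => (a i, h i) := by funext i; simp [mix]
  rw [← this]; exact key univ

lemma exists_bound {ι : Type*} [Fintype ι] (g : ι → ℚ) : ∃ W : ℚ, 0 < W ∧ ∀ i, g i ≤ W := by
  refine ⟨∑ i, |g i| + 1, by positivity, fun i => ?_⟩
  have := Finset.single_le_sum (f := fun i => |g i|) (fun i _ => abs_nonneg _) (mem_univ i)
  linarith [le_abs_self (g i)]

theorem reach_main {n : ℕ} (a b h k : Fin n → Fin 3 → ℚ)
    (hh : ∀ i j, 0 < h i j) (hk : ∀ i j, 0 < k i j)
    (ha : Pairwise fun i i' => Disjoint (box (a i) (h i)) (box (a i') (h i')))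
    (hb : Pairwise fun i i' => Disjoint (box (b i) (k i)) (box (b i') (k i')))
    (hvol : ∀ i, ∏ j : Fin 3, k i j / h i j = 1) :
    Reach (fun i => (a i, h i)) (fun i => (b i, k i)) := by
  obtain ⟨W, hW0, hW⟩ := exists_bound (fun p : Fin n × Fin 3 =>
    (|a p.1 p.2| + h p.1 p.2) + (|b p.1 p.2| + k p.1 p.2))
  have h1 := to_park a h k hh hk ha hvol W hW0
    (fun i j => by linarith [hW (i, j), abs_nonneg (b i j), hk i j])
    (fun i j => by linarith [hW (i, j), abs_nonneg (b i j), abs_nonneg (a i j), hh i j])
  have h2 := to_park b k k hk hk hb (fun i => Finset.prod_eq_one fun j _ => div_self (hk i j).ne')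
    W hW0 (fun i j => by linarith [hW (i, j), abs_nonneg (a i j), hh i j])
    (fun i j => by linarith [hW (i, j), abs_nonneg (b i j), abs_nonneg (a i j), hh i j])
  exact conn_reach hh (h1.trans (conn_symm h2))

end Crest.Agent.R126
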